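import Vale.Agent.P002R.YOrbStmt

/-!
# Central extensions of products of orbifold curve groups: definitions
-/

namespace Vale.Agent.P002.H326

open Matrix commutatorElement Vale.Agent.P002R.Orb

/-- Generators: those of `π_1(X_1 × ... × X_k)` (in `inl`) and `s` central generators
`z_t = inr t`. -/
abbrev GensC {k : ℕ} (g n : Fin k → ℕ) (s : ℕ) := Gens g n ⊕ Fin s

/-- The central element `∏ z_t ^ e_t`. -/
def zw {k : ℕ} (g n : Fin k → ℕ) {s : ℕ} (e : Fin s → ℤ) : FreeGroup (GensC g n s) :=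
  (List.ofFn fun t => FreeGroup.of (Sum.inr t) ^ e t).prod

/-- The relations of a central extension of the product of the orbifold groups of the curves `X_i`:
`∏ [a_{i,l}, b_{i,l}] * ∏ c_{i,j} = ∏ z_t ^ b_{i,t}`, the generators of different factors commute,
the `z_t` are central, `c_{i,j} ^ m_{i,j} = ∏ z_t ^ β_{i,j,t}` (with `m i j = 0` and `β i j = 0`:
a puncture without a relation), and `∏ z_t ^ q_t = 1` for `q ∈ Q`. -/
def RelsC {k : ℕ} (g n : Fin k → ℕ) {s : ℕ} (m : ∀ i, Fin (n i) → ℕ) (b : Fin k → Fin s → ℤ)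
    (β : ∀ i, Fin (n i) → Fin s → ℤ) (Q : Set (Fin s → ℤ)) : Set (FreeGroup (GensC g n s)) :=
  let e : GensC g n s → FreeGroup (GensC g n s) := FreeGroup.of
  {w | (∃ i, w = (List.ofFn fun l => ⁅e (Sum.inl (Sum.inl ⟨i, l, false⟩)),
          e (Sum.inl (Sum.inl ⟨i, l, true⟩))⁆).prod *
        (List.ofFn fun j => e (Sum.inl (Sum.inr ⟨i, j⟩))).prod * (zw g n (b i))⁻¹) ∨
    (∃ p q : Gens g n, Sum.elim Sigma.fst Sigma.fst p ≠ Sum.elim Sigma.fst Sigma.fst q ∧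
      w = ⁅e (Sum.inl p), e (Sum.inl q)⁆) ∨
    (∃ t p, w = ⁅e (Sum.inr t), e p⁆) ∨
    (∃ i j, w = e (Sum.inl (Sum.inr ⟨i, j⟩)) ^ m i j * (zw g n (β i j))⁻¹) ∨
    ∃ q ∈ Q, w = zw g n q}

/-- The points of `M_r(ℂ)` for this group with prescribed classes: `C i j` for the loop `c_{i,j}` if
`j ∈ S i`, and `D t` for `z_t` if `t ∈ S'`. -/
def YC {k : ℕ} {g n : Fin k → ℕ} {s r : ℕ} (m : ∀ i, Fin (n i) → ℕ) (b : Fin k → Fin s → ℤ)
    (β : ∀ i, Fin (n i) → Fin s → ℤ) (Q : Set (Fin s → ℤ)) (S : ∀ i, Set (Fin (n i)))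
    (C : ∀ i, Fin (n i) → SpecialLinearGroup (Fin r) ℂ) (S' : Set (Fin s))
    (D : Fin s → SpecialLinearGroup (Fin r) ℂ) :
    Set (GensC g n s → SpecialLinearGroup (Fin r) ℂ) :=
  {X ∈ YNone (RelsC g n m b β Q) r |
    (∀ i, ∀ j ∈ S i, IsConj (C i j) (X (Sum.inl (Sum.inr ⟨i, j⟩)))) ∧
      ∀ t ∈ S', IsConj (D t) (X (Sum.inr t))}

end Vale.Agent.P002.H326
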