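import Vale.Agent.P002.Bd3.B18
import Vale.Agent.P002.H326.Defs

/-!
# Central boundary generators
-/

namespace Vale.Agent.P002.H326

open Matrix Vale.Agent.P002R Vale.Agent.P002R.Orb commutatorElement

variable {κ ι : Type} {s r : ℕ}

/-- Inclusion of the generators. -/
def inclZ (κ ι : Type) (s : ℕ) : FreeGroup (κ ⊕ ι) →* FreeGroup (κ ⊕ (ι ⊕ Fin s)) :=
  FreeGroup.map (Sum.map id Sum.inl)

/-- The product of powers of the central generators. -/
def zq (κ ι : Type) {s : ℕ} (e : Fin s → ℤ) : FreeGroup (κ ⊕ (ι ⊕ Fin s)) :=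
  (List.ofFn fun t => FreeGroup.of (Sum.inr (Sum.inr t)) ^ e t).prod

/-- The relators. -/
def RelZ (s : ℕ) (Rel : Set (FreeGroup (κ ⊕ ι))) (A : Set (ι × ℕ × (Fin s → ℤ)))
    (Q : Set (Fin s → ℤ)) : Set (FreeGroup (κ ⊕ (ι ⊕ Fin s))) :=
  {w | (∃ v ∈ Rel, w = inclZ κ ι s v) ∨
    (∃ (t : Fin s) (p : κ ⊕ (ι ⊕ Fin s)),
      w = ⁅(FreeGroup.of (Sum.inr (Sum.inr t)) : FreeGroup (κ ⊕ (ι ⊕ Fin s))),
        (FreeGroup.of p : FreeGroup (κ ⊕ (ι ⊕ Fin s)))⁆) ∨
    (∃ a ∈ A, w = FreeGroup.of (Sum.inr (Sum.inl a.1)) ^ a.2.1 * (zq κ ι a.2.2)⁻¹) ∨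
    ∃ q ∈ Q, w = zq κ ι q}

theorem map_zq {H : Type*} [Group H] (x : FreeGroup (κ ⊕ (ι ⊕ Fin s)) →* H) (e : Fin s → ℤ) :
    x (zq κ ι e) = (List.ofFn fun t => x (FreeGroup.of (Sum.inr (Sum.inr t))) ^ e t).prod := by
  rw [zq, map_list_prod, List.map_ofFn]
  congr 2
  funext t
  simp only [Function.comp, map_zpow]

theorem relZ_charOK {Rel : Set (FreeGroup (κ ⊕ ι))} (h : CharOK Rel)
    (A : Set (ι × ℕ × (Fin s → ℤ))) (Q : Set (Fin s → ℤ)) : CharOK (RelZ s Rel A Q) := by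
  have hz : ∀ (B : Type) [CommGroup B] (χ : FreeGroup (κ ⊕ (ι ⊕ Fin s)) →* B),
      (∀ j, χ (FreeGroup.of (Sum.inr j)) = 1) → ∀ e : Fin s → ℤ, χ (zq κ ι e) = 1 := by
    intro B _ χ hχ e
    rw [map_zq]
    simp [hχ]
  rintro w (⟨v, hv, rfl⟩ | ⟨t, p, rfl⟩ | ⟨a, -, rfl⟩ | ⟨q, -, rfl⟩) B _ χ hχ
  · refine h v hv B (χ.comp (inclZ κ ι s)) fun j => ?_
    rw [MonoidHom.comp_apply, inclZ, FreeGroup.map.of]
    exact hχ _
  · rw [map_commutatorElement, commutatorElement_eq_one_iff_mul_comm, mul_comm]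
  · rw [map_mul, map_inv, hz B χ hχ, map_pow, hχ, one_pow, inv_one, mul_one]
  · exact hz B χ hχ q

theorem stable_of_gen {G : Type} (x : FreeGroup G →* (Mat r ℂ)ˣ) (W : Submodule ℂ (Fin r → ℂ))
    (h : ∀ p, ∀ v ∈ W, (x (FreeGroup.of p) : Mat r ℂ) *ᵥ v ∈ W) :
    ∀ w, ∀ v ∈ W, (x w : Mat r ℂ) *ᵥ v ∈ W := by
  intro w
  obtain ⟨H, hH⟩ : ∃ H : Subgroup (Mat r ℂ)ˣ, ∀ M, M ∈ H ↔
      ∀ v ∈ W, (M : Mat r ℂ) *ᵥ v ∈ W :=
    ⟨{ carrier := {M | ∀ v ∈ W, (M : Mat r ℂ) *ᵥ v ∈ W}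
       mul_mem' := fun {a b} ha hb v hv => by
        rw [Units.val_mul, ← Matrix.mulVec_mulVec]
        exact ha _ (hb v hv)
       one_mem' := fun v hv => by rwa [Units.val_one, Matrix.one_mulVec]
       inv_mem' := fun {a} ha => Statement.inv_stable a W ha }, fun M => Iff.rfl⟩
  have h1 : (⊤ : Subgroup (FreeGroup G)) ≤ H.comap x := by
    rw [← FreeGroup.closure_range_of, Subgroup.closure_le]
    rintro _ ⟨k, rfl⟩
    rw [SetLike.mem_coe, Subgroup.mem_comap, hH]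
    exact h k
  exact (hH _).1 (h1 (Subgroup.mem_top w))

theorem commute_of_gen {G H : Type*} [Group H] (x : FreeGroup G →* H) (y : H)
    (hy : ∀ p, Commute y (x (FreeGroup.of p))) : ∀ w, Commute y (x w) := by
  intro w
  have : (⊤ : Subgroup (FreeGroup G)) ≤ (Subgroup.centralizer {y}).comap x := by
    rw [← FreeGroup.closure_range_of, Subgroup.closure_le]
    rintro _ ⟨p, rfl⟩
    rw [SetLike.mem_coe, Subgroup.mem_comap, Subgroup.mem_centralizer_singleton_iff]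
    exact (hy p).symm
  have h := this (Subgroup.mem_top w)
  rw [Subgroup.mem_comap, Subgroup.mem_centralizer_singleton_iff] at h
  exact h.symm

theorem commute_mat_of_gen {G : Type} (x : FreeGroup G →* (Mat r ℂ)ˣ) (M : Mat r ℂ)
    (hM : ∀ p, Commute M (x (FreeGroup.of p) : Mat r ℂ)) : ∀ w, Commute M (x w : Mat r ℂ) := by
  intro w
  obtain ⟨H, hH⟩ : ∃ H : Subgroup (Mat r ℂ)ˣ, ∀ u, u ∈ H ↔ Commute M (u : Mat r ℂ) :=
    ⟨{ carrier := {u | Commute M (u : Mat r ℂ)}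
       mul_mem' := fun {a b} ha hb => by
        change Commute M ((a * b : (Mat r ℂ)ˣ) : Mat r ℂ)
        rw [Units.val_mul]
        exact Commute.mul_right ha hb
       one_mem' := by
        change Commute M ((1 : (Mat r ℂ)ˣ) : Mat r ℂ)
        rw [Units.val_one]
        exact Commute.one_right M
       inv_mem' := fun {a} ha => Commute.units_inv_right ha }, fun M => Iff.rfl⟩
  have h1 : (⊤ : Subgroup (FreeGroup G)) ≤ H.comap x := by
    rw [← FreeGroup.closure_range_of, Subgroup.closure_le]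
    rintro _ ⟨k, rfl⟩
    rw [SetLike.mem_coe, Subgroup.mem_comap, hH]
    exact hM k
  exact (hH _).1 (h1 (Subgroup.mem_top w))

theorem relZ_irrDenseQ {R : Type*} [CommRing R] (φ : R →+* ℂ) (E : Subgroup ℂˣ)
    (Rel : Set (FreeGroup (κ ⊕ ι))) (A : Set (ι × ℕ × (Fin s → ℤ))) (Q : Set (Fin s → ℤ))
    (hr : 0 < r) (h : IrrDenseQ (fun _ : ι => QD E False False) Rel φ r) :
    IrrDenseQ (fun _ : ι ⊕ Fin s => QD E False False) (RelZ s Rel A Q) φ r := by
  intro C hC x hx hcen f hf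
  have hcomm : ∀ t : Fin s, ∀ w, Commute (x (FreeGroup.of (Sum.inr (Sum.inr t)))) (x w) := by
    intro t
    refine commute_of_gen x _ fun p => ?_
    have := hx.1 _ (Or.inr (Or.inl ⟨t, p, rfl⟩))
    rwa [map_commutatorElement, commutatorElement_eq_one_iff_mul_comm] at this
  have hζ : ∀ t : Fin s, ∃ c : ℂ,
      (x (FreeGroup.of (Sum.inr (Sum.inr t))) : Mat r ℂ) = c • (1 : Mat r ℂ) := by
    intro t
    refine hcen _ fun w => ?_
    have := hcomm t w
    exact congrArg Units.val this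
  choose ζ hζ using hζ
  have hpos : Nonempty (Fin r) := ⟨⟨0, hr⟩⟩
  have hζ0 : ∀ t, ζ t ≠ 0 := by
    intro t h0
    have h1 := hζ t
    rw [h0, zero_smul] at h1
    have h2 := (x (FreeGroup.of (Sum.inr (Sum.inr t)))).mul_inv
    rw [h1, zero_mul] at h2
    exact zero_ne_one h2
  have hsc : ∀ t, x (FreeGroup.of (Sum.inr (Sum.inr t))) = scalarU (Units.mk0 (ζ t) (hζ0 t)) := by
    intro t
    apply Units.ext
    rw [hζ]
    change _ = algebraMap ℂ (Mat r ℂ) (ζ t)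
    rw [Algebra.algebraMap_eq_smul_one]
  obtain ⟨x₀, hx₀⟩ : ∃ x₀, x₀ = x.comp (inclZ κ ι s) := ⟨_, rfl⟩
  have hx₀l : ∀ k, x₀ (FreeGroup.of (Sum.inl k)) = x (FreeGroup.of (Sum.inl k)) := by
    intro k
    rw [hx₀, MonoidHom.comp_apply, inclZ, FreeGroup.map.of]
    rfl
  have hx₀r : ∀ j, x₀ (FreeGroup.of (Sum.inr j)) = x (FreeGroup.of (Sum.inr (Sum.inl j))) := by
    intro k
    rw [hx₀, MonoidHom.comp_apply, inclZ, FreeGroup.map.of]
    rfl
  -- the extension of a representation by the scalars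
  obtain ⟨ex, hex⟩ : ∃ ex : (FreeGroup (κ ⊕ ι) →* (Mat r ℂ)ˣ) →
      (FreeGroup (κ ⊕ (ι ⊕ Fin s)) →* (Mat r ℂ)ˣ), ∀ y, ex y = FreeGroup.lift
        (Sum.elim (fun k => y (FreeGroup.of (Sum.inl k)))
          (Sum.elim (fun j => y (FreeGroup.of (Sum.inr j)))
            fun t => x (FreeGroup.of (Sum.inr (Sum.inr t))))) := ⟨_, fun _ => rfl⟩
  have hexl : ∀ y k, ex y (FreeGroup.of (Sum.inl k)) = y (FreeGroup.of (Sum.inl k)) := by
    intro y k
    rw [hex, FreeGroup.lift_apply_of]; rfl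
  have hexr : ∀ y j, ex y (FreeGroup.of (Sum.inr (Sum.inl j))) = y (FreeGroup.of (Sum.inr j)) := by
    intro y j
    rw [hex, FreeGroup.lift_apply_of]; rfl
  have hexz : ∀ y t, ex y (FreeGroup.of (Sum.inr (Sum.inr t))) =
      x (FreeGroup.of (Sum.inr (Sum.inr t))) := by
    intro y j
    rw [hex, FreeGroup.lift_apply_of]; rfl
  have hexc : ∀ y, (ex y).comp (inclZ κ ι s) = y := by
    intro y
    apply FreeGroup.ext_hom
    rintro (k | j)
    · rw [MonoidHom.comp_apply, inclZ, FreeGroup.map.of]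
      exact hexl y k
    · rw [MonoidHom.comp_apply, inclZ, FreeGroup.map.of]
      exact hexr y j
  have hexx : ex x₀ = x := by
    apply FreeGroup.ext_hom
    rintro (k | j | t)
    · rw [hexl, hx₀l]
    · rw [hexr, hx₀r]
    · rw [hexz]
  have hexq : ∀ y e, ex y (zq κ ι e) = x (zq κ ι e) := by
    intro y e
    rw [map_zq, map_zq]
    simp only [hexz]
  -- products of scalars are scalars
  have hzs : ∀ e : Fin s → ℤ, ∃ c : ℂˣ, x (zq κ ι e) = scalarU c := by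
    intro e
    refine ⟨(List.ofFn fun t => (Units.mk0 (ζ t) (hζ0 t)) ^ e t).prod, ?_⟩
    rw [map_zq, map_list_prod, List.map_ofFn]
    congr 2
    funext t
    simp only [Function.comp, map_zpow, hsc]
  -- the polynomial
  obtain ⟨su, hsu⟩ : ∃ su : (κ ⊕ (ι ⊕ Fin s)) × Fin r × Fin r →
      MvPolynomial ((κ ⊕ ι) × Fin r × Fin r) ℂ, su = fun p =>
        Sum.elim (fun k => MvPolynomial.X (Sum.inl k, p.2))
          (Sum.elim (fun j => MvPolynomial.X (Sum.inr j, p.2))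
            fun t => MvPolynomial.C ((x (FreeGroup.of (Sum.inr (Sum.inr t))) : Mat r ℂ)
              p.2.1 p.2.2)) p.1 := ⟨_, rfl⟩
  have hf₀ : ∀ y, evalG y (MvPolynomial.aeval su f) = evalG (ex y) f := by
    intro y
    have h1 : (evalG y).comp (MvPolynomial.aeval su) = evalG (ex y) := by
      apply MvPolynomial.algHom_ext
      rintro ⟨k | j | t, p⟩
      · rw [AlgHom.comp_apply, MvPolynomial.aeval_X, hsu]
        simp only [Sum.elim_inl, evalG, MvPolynomial.aeval_X, hexl]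
      · rw [AlgHom.comp_apply, MvPolynomial.aeval_X, hsu]
        simp only [Sum.elim_inl, Sum.elim_inr, evalG, MvPolynomial.aeval_X, hexr]
      · rw [AlgHom.comp_apply, MvPolynomial.aeval_X, hsu]
        simp only [Sum.elim_inr, evalG, MvPolynomial.aeval_X, hexz, MvPolynomial.aeval_C]
        rfl
    exact DFunLike.congr_fun h1 f
  rw [← hexx, ← hf₀]
  refine h (fun j => C (Sum.inl j)) (fun j => hC (Sum.inl j)) x₀ ⟨fun w hw => ?_, fun j => ?_, ?_⟩
    ?_ (MvPolynomial.aeval su f) ?_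
  · rw [hx₀, MonoidHom.comp_apply]
    exact hx.1 _ (Or.inl ⟨w, hw, rfl⟩)
  · rw [hx₀r]
    exact hx.2.1 (Sum.inl j)
  · intro W hW
    have hW' : ∀ w, ∀ v ∈ W, (x w : Mat r ℂ) *ᵥ v ∈ W := by
      refine stable_of_gen x W ?_
      rintro (k | j | t) v hv
      · have := hW (FreeGroup.of (Sum.inl k)) v hv
        rwa [hx₀l] at this
      · have := hW (FreeGroup.of (Sum.inr j)) v hv
        rwa [hx₀r] at this
      · rw [hζ, Matrix.smul_mulVec, Matrix.one_mulVec]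
        exact W.smul_mem _ hv
    obtain ⟨W', h1, h2⟩ := hx.2.2 W hW'
    refine ⟨W', fun w v hv => ?_, h2⟩
    rw [hx₀, MonoidHom.comp_apply]
    exact h1 _ v hv
  · intro M hM
    refine hcen M (commute_mat_of_gen x M ?_)
    rintro (k | j | t)
    · have := hM (FreeGroup.of (Sum.inl k))
      rwa [hx₀l] at this
    · have := hM (FreeGroup.of (Sum.inr j))
      rwa [hx₀r] at this
    · rw [hζ]
      exact (Commute.one_right M).smul_right _
  · intro y hy
    rw [hf₀]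
    refine hf _ ?_
    obtain ⟨⟨⟨h1, h2, h3⟩, h4⟩, h5⟩ := hy
    have htop : Algebra.adjoin ℂ (Set.range fun w => (ex y w : Mat r ℂ)) = ⊤ := by
      rw [eq_top_iff, ← h5]
      refine Algebra.adjoin_mono ?_
      rintro _ ⟨w, rfl⟩
      refine ⟨inclZ κ ι s w, ?_⟩
      have := DFunLike.congr_fun (hexc y) w
      rw [MonoidHom.comp_apply] at this
      simp only [this]
    refine ⟨⟨⟨?_, ?_, ss_of_adjoin _ htop⟩, ?_⟩, htop⟩
    · rintro w (⟨v, hv, rfl⟩ | ⟨t, p, rfl⟩ | ⟨a, ha, rfl⟩ | ⟨q, hq, rfl⟩)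
      · rw [← MonoidHom.comp_apply, hexc]
        exact h1 v hv
      · rw [map_commutatorElement, commutatorElement_eq_one_iff_mul_comm, hexz, hsc]
        exact scalarU_comm _ _
      · rw [map_mul, map_inv, map_pow, hexr, hexq, mul_inv_eq_one]
        have h6 := hx.1 _ (Or.inr (Or.inr (Or.inl ⟨a, ha, rfl⟩)))
        rw [map_mul, map_inv, map_pow, mul_inv_eq_one] at h6
        rw [← h6]
        obtain ⟨c, hc⟩ := hzs a.2.2
        obtain ⟨U, hU⟩ := isConj_iff.1 ((hx.2.1 (Sum.inl a.1)).symm.trans (h2 a.1))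
        rw [← hU, conj_pow, h6, hc, ← scalarU_comm, mul_assoc, mul_inv_cancel, mul_one]
      · rw [hexq]
        exact hx.1 _ (Or.inr (Or.inr (Or.inr ⟨q, hq, rfl⟩)))
    · rintro (j | t)
      · rw [hexr]
        exact h2 j
      · rw [hexz]
        exact hx.2.1 (Sum.inr t)
    · rintro (k | j | t)
      · rw [hexl]; exact h4 _
      · rw [hexr]; exact h4 _
      · rw [hexz, hsc]
        exact ⟨Units.mk0 (ζ t) (hζ0 t), 1, by rw [map_one, mul_one]⟩

end Vale.Agent.P002.H326
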