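import Vale.Agent.P002.H326.A

/-!
# Central extensions: pieces with prescribed classes
-/

namespace Vale.Agent.P002.H326

open Matrix Vale.Agent.P002R Vale.Agent.P002R.Orb commutatorElement

/-- Change of generators. -/
theorem tietze' {ι ι' : Type} {r : ℕ} {L : IntermediateField ℚ ℂ}
    (T : Set (ι → SpecialLinearGroup (Fin r) ℂ)) (T' : Set (ι' → SpecialLinearGroup (Fin r) ℂ))
    (a : ι → FreeGroup ι')
    (h1 : ∀ X ∈ T, ∃ X' ∈ T', ∀ p, FreeGroup.lift X' (a p) = X p)
    (h2 : ∀ X ∈ T', (fun p => FreeGroup.lift X (a p)) ∈ T)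
    (h : IsDenseRep L T') : IsDenseRep L T := by
  intro F hF X hX
  obtain ⟨f, hf⟩ := exists_pullback a F
  obtain ⟨X', h3, h4⟩ := h1 X hX
  have h5 : X = fun p => FreeGroup.lift X' (a p) := funext fun p => (h4 p).symm
  rw [h5, ← hf]
  refine h f (fun Y hY hY' => ?_) _ h3
  rw [hf]
  exact hF _ (h2 Y hY) (hY'.lift a)

variable {k s r : ℕ} {g n : Fin k → ℕ}

/-- The product of powers of the central elements. -/
def ZP {H : Type*} [Group H] (z : Fin s → H) (e : Fin s → ℤ) : H :=
  (List.ofFn fun t => z t ^ e t).prod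

theorem map_zw {H : Type*} [Group H] (x : FreeGroup (GensC g n s) →* H) (e : Fin s → ℤ) :
    x (zw g n e) = ZP (fun t => x (FreeGroup.of (Sum.inr t))) e := by
  rw [zw, ZP, map_list_prod, List.map_ofFn]
  congr 2
  funext t
  simp only [Function.comp, map_zpow]

theorem map_zq' {κ ι : Type} {H : Type*} [Group H] (x : FreeGroup (κ ⊕ (ι ⊕ Fin s)) →* H)
    (e : Fin s → ℤ) :
    x (zq κ ι e) = ZP (fun t => x (FreeGroup.of (Sum.inr (Sum.inr t)))) e := map_zq x e

theorem ZP_neg {H : Type*} [Group H] (z : Fin s → H) (hz : ∀ t t', Commute (z t) (z t'))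
    (e : Fin s → ℤ) : ZP z (-e) = (ZP z e)⁻¹ := by
  rw [eq_comm, inv_eq_iff_mul_eq_one]
  unfold ZP
  have h : ∀ L : List (Fin s), (L.map fun t => z t ^ e t).prod *
      (L.map fun t => z t ^ (-e) t).prod = 1 := by
    intro L
    induction L with
    | nil => simp
    | cons t L ih =>
      rw [List.map_cons, List.prod_cons, List.map_cons, List.prod_cons]
      have hc : Commute ((L.map fun t => z t ^ e t).prod) (z t ^ (-e) t) := by
        refine (Commute.list_prod_right _ _ fun y hy => ?_).symm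
        obtain ⟨t', -, rfl⟩ := List.mem_map.1 hy
        exact ((hz t t').zpow_right _).zpow_left _
      calc z t ^ e t * (L.map fun t => z t ^ e t).prod *
            (z t ^ (-e) t * (L.map fun t => z t ^ (-e) t).prod)
          = z t ^ e t * ((L.map fun t => z t ^ e t).prod * z t ^ (-e) t) *
              (L.map fun t => z t ^ (-e) t).prod := by group
        _ = z t ^ e t * (z t ^ (-e) t * (L.map fun t => z t ^ e t).prod) *
              (L.map fun t => z t ^ (-e) t).prod := by rw [hc.eq]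
        _ = (z t ^ e t * z t ^ (-e) t) * ((L.map fun t => z t ^ e t).prod *
              (L.map fun t => z t ^ (-e) t).prod) := by group
        _ = 1 := by rw [ih, mul_one, Pi.neg_apply, _root_.zpow_neg, mul_inv_cancel]
  have h1 := h (List.ofFn fun t : Fin s => t)
  rw [List.map_ofFn, List.map_ofFn] at h1
  exact h1

theorem ZP_commute {H : Type*} [Group H] (z : Fin s → H) (y : H) (hz : ∀ t, Commute y (z t))
    (e : Fin s → ℤ) : Commute y (ZP z e) := by
  refine Commute.list_prod_right _ _ fun x hx => ?_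
  obtain ⟨t, rfl⟩ := List.mem_ofFn.1 hx
  exact (hz t).zpow_right _

variable (g) (m : ∀ i, Fin (n i) → ℕ) (b : Fin k → Fin s → ℤ)
    (β : ∀ i, Fin (n i) → Fin s → ℤ) (Q : Set (Fin s → ℤ))

theorem isRepC_iff (X : GensC g n s → SpecialLinearGroup (Fin r) ℂ) :
    IsRep (RelsC g n m b β Q) X ↔
      (∀ i, (List.ofFn fun l : Fin (g i) => X (Sum.inl (Sum.inl ⟨i, l, false⟩)) *
        X (Sum.inl (Sum.inl ⟨i, l, true⟩)) * (X (Sum.inl (Sum.inl ⟨i, l, false⟩)))⁻¹ *
          (X (Sum.inl (Sum.inl ⟨i, l, true⟩)))⁻¹).prod *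
        (List.ofFn fun j => X (Sum.inl (Sum.inr ⟨i, j⟩))).prod =
          ZP (fun t => X (Sum.inr t)) (b i)) ∧
      (∀ p q : Gens g n, Product.factor p ≠ Product.factor q →
        Commute (X (Sum.inl p)) (X (Sum.inl q))) ∧
      (∀ t p, Commute (X (Sum.inr t)) (X p)) ∧
      (∀ i j, X (Sum.inl (Sum.inr ⟨i, j⟩)) ^ m i j = ZP (fun t => X (Sum.inr t)) (β i j)) ∧
      ∀ q ∈ Q, ZP (fun t => X (Sum.inr t)) q = 1 := by
  have h0 : ∀ e : Fin s → ℤ, FreeGroup.lift X (zw g n e) = ZP (fun t => X (Sum.inr t)) e := by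
    intro e
    rw [map_zw]
    simp only [FreeGroup.lift_apply_of]
  have h1 : ∀ i, FreeGroup.lift X ((List.ofFn fun l : Fin (g i) =>
      ⁅(FreeGroup.of (Sum.inl (Sum.inl ⟨i, l, false⟩)) : FreeGroup (GensC g n s)),
        (FreeGroup.of (Sum.inl (Sum.inl ⟨i, l, true⟩)) : FreeGroup (GensC g n s))⁆).prod *
      (List.ofFn fun j : Fin (n i) =>
        (FreeGroup.of (Sum.inl (Sum.inr ⟨i, j⟩)) : FreeGroup (GensC g n s))).prod *
          (zw g n (b i))⁻¹) =
      (List.ofFn fun l : Fin (g i) => X (Sum.inl (Sum.inl ⟨i, l, false⟩)) *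
        X (Sum.inl (Sum.inl ⟨i, l, true⟩)) * (X (Sum.inl (Sum.inl ⟨i, l, false⟩)))⁻¹ *
          (X (Sum.inl (Sum.inl ⟨i, l, true⟩)))⁻¹).prod *
        (List.ofFn fun j => X (Sum.inl (Sum.inr ⟨i, j⟩))).prod *
          (ZP (fun t => X (Sum.inr t)) (b i))⁻¹ := by
    intro i
    rw [map_mul, map_mul, map_inv, h0, map_list_prod, map_list_prod, List.map_ofFn, List.map_ofFn]
    congr 3
    · congr 1
      funext l
      simp only [Function.comp, commutatorElement_def, map_mul, map_inv, FreeGroup.lift_apply_of]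
    · congr 1
      funext l
      simp only [Function.comp, FreeGroup.lift_apply_of]
  constructor
  · intro h
    refine ⟨fun i => ?_, fun p q hpq => ?_, fun t p => ?_, fun i j => ?_, fun q hq => ?_⟩
    · have := h _ (Or.inl ⟨i, rfl⟩)
      rwa [h1, mul_inv_eq_one] at this
    · have := h _ (Or.inr (Or.inl ⟨p, q, hpq, rfl⟩))
      rwa [map_commutatorElement, commutatorElement_eq_one_iff_mul_comm, FreeGroup.lift_apply_of,
        FreeGroup.lift_apply_of] at this
    · have := h _ (Or.inr (Or.inr (Or.inl ⟨t, p, rfl⟩)))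
      rwa [map_commutatorElement, commutatorElement_eq_one_iff_mul_comm, FreeGroup.lift_apply_of,
        FreeGroup.lift_apply_of] at this
    · have := h _ (Or.inr (Or.inr (Or.inr (Or.inl ⟨i, j, rfl⟩))))
      rwa [map_mul, map_pow, map_inv, h0, mul_inv_eq_one, FreeGroup.lift_apply_of] at this
    · have := h _ (Or.inr (Or.inr (Or.inr (Or.inr ⟨q, hq, rfl⟩))))
      rwa [h0] at this
  · rintro ⟨h2, h3, h4, h5, h6⟩ w (⟨i, rfl⟩ | ⟨p, q, hpq, rfl⟩ | ⟨t, p, rfl⟩ | ⟨i, j, rfl⟩ |
      ⟨q, hq, rfl⟩)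
    · rw [h1, mul_inv_eq_one]
      exact h2 i
    · rw [map_commutatorElement, commutatorElement_eq_one_iff_mul_comm, FreeGroup.lift_apply_of,
        FreeGroup.lift_apply_of]
      exact h3 p q hpq
    · rw [map_commutatorElement, commutatorElement_eq_one_iff_mul_comm, FreeGroup.lift_apply_of,
        FreeGroup.lift_apply_of]
      exact h4 t p
    · rw [map_mul, map_pow, map_inv, h0, mul_inv_eq_one, FreeGroup.lift_apply_of]
      exact h5 i j
    · rw [h0]
      exact h6 q hq

end Vale.Agent.P002.H326
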