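import Vale.Agent.P002.H326.B

/-!
# Central extensions: density in the pieces
-/

namespace Vale.Agent.P002.H326

open Matrix NumberField Vale.Agent.P002R Vale.Agent.P002R.Orb commutatorElement

variable {k s r : ℕ} {g n : Fin k → ℕ}

/-- The prescribed marked points: those in `P` and one more. -/
def PU (P : ∀ i, Fin (n i) → Prop) (i : Fin k) (j : Fin (n i + 1)) : Prop :=
  ∀ h : (j : ℕ) < n i, P i ⟨j, h⟩

/-- The free puncture. -/
def oU (o : ∀ i, Option (Fin (n i))) (i : Fin k) : Option (Fin (n i + 1)) :=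
  (o i).map Fin.castSucc

theorem PU_castSucc {P : ∀ i, Fin (n i) → Prop} {i : Fin k} {j : Fin (n i)} :
    PU P i j.castSucc ↔ P i j :=
  ⟨fun h => h j.2, fun h _ => h⟩

theorem PU_last {P : ∀ i, Fin (n i) → Prop} {i : Fin k} : PU P i (Fin.last _) :=
  fun h => absurd h (lt_irrefl _)

theorem ho_U {P : ∀ i, Fin (n i) → Prop} {o : ∀ i, Option (Fin (n i))}
    (ho : ∀ i j, o i = some j → ¬ P i j) : ∀ i j, oU o i = some j → ¬ PU P i j := by
  intro i j h hP
  obtain ⟨j', h1, rfl⟩ := Option.map_eq_some_iff.1 h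
  exact ho i j' h1 (PU_castSucc.1 hP)

theorem hn_U {P : ∀ i, Fin (n i) → Prop} {o : ∀ i, Option (Fin (n i))}
    (hn : ∀ i, o i = none → ∀ j, P i j) : ∀ i, oU o i = none → ∀ j, PU P i j := by
  intro i h j hj
  exact hn i (Option.map_eq_none_iff.1 h) _

/-- The numbers of marked points. -/
abbrev nU (n : Fin k → ℕ) : Fin k → ℕ := fun i => n i + 1

/-- The generators are a part of the extended generators. -/
def up : Gens g n → Gens g (nU n)
  | Sum.inl p => Sum.inl p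
  | Sum.inr ⟨i, j⟩ => Sum.inr ⟨i, j.castSucc⟩

theorem factor_up (p : Gens g n) : Product.factor (up p) = Product.factor p := by
  rcases p with p | p <;> rfl

/-- The extended generators as words. -/
def wU (g : Fin k → ℕ) {n : Fin k → ℕ} (b : Fin k → Fin s → ℤ) :
    Gens g (nU n) → FreeGroup (GensC g n s)
  | Sum.inl p => FreeGroup.of (Sum.inl (Sum.inl p))
  | Sum.inr ⟨i, j⟩ => if h : (j : ℕ) < n i then FreeGroup.of (Sum.inl (Sum.inr ⟨i, ⟨j, h⟩⟩)) else
      (zw g n (b i))⁻¹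

theorem wU_up (b : Fin k → Fin s → ℤ) (p : Gens g n) :
    wU g b (up p) = FreeGroup.of (Sum.inl p) := by
  rcases p with p | ⟨i, j⟩
  · rfl
  · simp only [up, wU, Fin.val_castSucc, j.2, dif_pos]

theorem wU_last (b : Fin k → Fin s → ℤ) (i : Fin k) :
    wU g b (Sum.inr ⟨i, Fin.last (n i)⟩) = (zw g n (b i))⁻¹ := by
  simp only [wU, Fin.val_last, lt_irrefl, dif_neg, not_false_eq_true]

section main

variable (g) (P : ∀ i, Fin (n i) → Prop) (o : ∀ i, Option (Fin (n i)))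
variable (m : ∀ i, Fin (n i) → ℕ) (b : Fin k → Fin s → ℤ)
    (β : ∀ i, Fin (n i) → Fin s → ℤ) (Q : Set (Fin s → ℤ))

/-- Free generators. -/
abbrev KK := Σ i, KO (g i) (PU P i) (oU o i)

/-- Boundary generators. -/
abbrev II := Σ i : Fin k, IO (PU P i)

/-- The relations between the boundary generators and the central ones. -/
def AZ : Set (II P × ℕ × (Fin s → ℤ)) :=
  {a | (∃ (i : Fin k) (j : Fin (n i)) (h : P i j),
      a = (⟨i, ⟨j.castSucc, PU_castSucc.2 h⟩⟩, m i j, β i j)) ∨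
    ∃ i : Fin k, a = (⟨i, ⟨Fin.last (n i), PU_last⟩⟩, 1, -b i)}

/-- The relations between the central generators. -/
def QZ : Set (Fin s → ℤ) := {q | q ∈ Q ∨ ∃ (i : Fin k) (j : Fin (n i)), m i j = 0 ∧ q = β i j}

/-- The relators. -/
def RZ : Set (FreeGroup (KK g P o ⊕ (II P ⊕ Fin s))) :=
  RelZ s (RelF g (PU P) (oU o)) (AZ P m b β) (QZ m β Q)

/-- The generators as words. -/
noncomputable def aZ : GensC g n s → FreeGroup (KK g P o ⊕ (II P ⊕ Fin s))
  | Sum.inl p => inclZ _ _ s (aF g (PU P) (oU o) (up p))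
  | Sum.inr t => FreeGroup.of (Sum.inr (Sum.inr t))

/-- The other generators as words. -/
def bZ : KK g P o ⊕ (II P ⊕ Fin s) → FreeGroup (GensC g n s)
  | Sum.inl p => wU g b (bF g (PU P) (oU o) (Sum.inl p))
  | Sum.inr (Sum.inl p) => wU g b (bF g (PU P) (oU o) (Sum.inr p))
  | Sum.inr (Sum.inr t) => FreeGroup.of (Sum.inr t)

/-- The piece of `X₀`. -/
def PZ (X₀ : GensC g n s → SpecialLinearGroup (Fin r) ℂ) :
    Set (GensC g n s → SpecialLinearGroup (Fin r) ℂ) :=
  {X | IsRep (RelsC g n m b β Q) X ∧ IsSS X ∧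
    (∀ i j, P i j → IsConj (X₀ (Sum.inl (Sum.inr ⟨i, j⟩))) (X (Sum.inl (Sum.inr ⟨i, j⟩)))) ∧
    (∀ t, IsConj (X₀ (Sum.inr t)) (X (Sum.inr t))) ∧
    ∀ i, IsConj (ZP (fun t => X₀ (Sum.inr t)) (b i)) (ZP (fun t => X (Sum.inr t)) (b i))}

/-- The classes. -/
noncomputable def CZ (X₀ : GensC g n s → SpecialLinearGroup (Fin r) ℂ) :
    II P ⊕ Fin s → SpecialLinearGroup (Fin r) ℂ :=
  Sum.elim (fun p => FreeGroup.lift X₀ (wU g b (Sum.inr ⟨p.1, p.2.1⟩))) fun t => X₀ (Sum.inr t)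

variable {g P o m b β Q}

theorem lift_zw (X : GensC g n s → SpecialLinearGroup (Fin r) ℂ) (e : Fin s → ℤ) :
    FreeGroup.lift X (zw g n e) = ZP (fun t => X (Sum.inr t)) e := by
  rw [map_zw]
  simp only [FreeGroup.lift_apply_of]

theorem conj_word (X₀ X : GensC g n s → SpecialLinearGroup (Fin r) ℂ)
    (hX : X ∈ PZ g P m b β Q X₀) (i : Fin k) (j : Fin (n i + 1)) (hj : PU P i j) :
    IsConj (FreeGroup.lift X₀ (wU g b (Sum.inr ⟨i, j⟩)))
      (FreeGroup.lift X (wU g b (Sum.inr ⟨i, j⟩))) := by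
  simp only [wU]
  split_ifs with h
  · rw [FreeGroup.lift_apply_of, FreeGroup.lift_apply_of]
    exact hX.2.2.1 i _ (hj h)
  · rw [map_inv, map_inv, lift_zw, lift_zw]
    obtain ⟨U, hU⟩ := isConj_iff.1 (hX.2.2.2.2 i)
    exact isConj_iff.2 ⟨U, by rw [← hU, conj_inv]⟩

theorem pz_to_tg (X₀ X : GensC g n s → SpecialLinearGroup (Fin r) ℂ)
    (hX : X ∈ PZ g P m b β Q X₀) (hP : ∀ i j, m i j ≠ 0 → P i j) :
    (fun q => FreeGroup.lift X (bZ g P o b q)) ∈ TG (RZ g P o m b β Q) (CZ g P b X₀) ∧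
      ∀ p, FreeGroup.lift (fun q => FreeGroup.lift X (bZ g P o b q)) (aZ g P o p) = X p := by
  have hXX := hX
  obtain ⟨hrep, hss, -, hz, -⟩ := hX
  obtain ⟨h2, h3, h4, h5, h6⟩ := (isRepC_iff g m b β Q X).1 hrep
  obtain ⟨X', hX'⟩ : ∃ X' : KK g P o ⊕ (II P ⊕ Fin s) → SpecialLinearGroup (Fin r) ℂ,
      X' = fun q => FreeGroup.lift X (bZ g P o b q) := ⟨_, rfl⟩
  obtain ⟨XU, hXU⟩ : ∃ XU : Gens g (nU n) → SpecialLinearGroup (Fin r) ℂ,
      XU = fun p => FreeGroup.lift X (wU g b p) := ⟨_, rfl⟩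
  rw [← hX']
  have hz' : ∀ t, X' (Sum.inr (Sum.inr t)) = X (Sum.inr t) := by
    intro t
    rw [hX']
    exact FreeGroup.lift_apply_of
  have hXU1 : ∀ p, XU (up p) = X (Sum.inl p) := by
    intro p
    rw [hXU]
    simp only [wU_up, FreeGroup.lift_apply_of]
  have hXU2 : ∀ i, XU (Sum.inr ⟨i, Fin.last (n i)⟩) =
      (ZP (fun t => X (Sum.inr t)) (b i))⁻¹ := by
    intro i
    rw [hXU]
    simp only [wU_last, map_inv, lift_zw]
  have hcases : ∀ q : Gens g (nU n), (∃ p : Gens g n, q = up p) ∨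
      ∃ i, q = Sum.inr ⟨i, Fin.last (n i)⟩ := by
    rintro (q | ⟨i, j⟩)
    · exact Or.inl ⟨Sum.inl q, rfl⟩
    · induction j using Fin.lastCases with
      | last => exact Or.inr ⟨i, rfl⟩
      | cast j => exact Or.inl ⟨Sum.inr ⟨i, j⟩, rfl⟩
  have hcen : ∀ t q, Commute (X (Sum.inr t)) (XU q) := by
    intro t q
    rcases hcases q with ⟨p, rfl⟩ | ⟨i, rfl⟩
    · rw [hXU1]; exact h4 t _
    · rw [hXU2]
      exact (ZP_commute _ _ (fun t' => h4 t _) _).inv_right
  have hfac : ∀ p q : Gens g (nU n), Product.factor p ≠ Product.factor q →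
      Commute (XU p) (XU q) := by
    intro p q hpq
    have hl : ∀ i q, Commute ((ZP (fun t => X (Sum.inr t)) (b i))⁻¹) (XU q) := by
      intro i q
      exact (ZP_commute (fun t => X (Sum.inr t)) (XU q) (fun t => (hcen t q).symm) _).symm.inv_left
    rcases hcases p with ⟨p, rfl⟩ | ⟨i, rfl⟩
    · rcases hcases q with ⟨q, rfl⟩ | ⟨i, rfl⟩
      · rw [hXU1, hXU1]
        exact h3 p q (by rwa [factor_up, factor_up] at hpq)
      · rw [hXU2]
        exact (hl i _).symm
    · rw [hXU2]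
      exact hl i _
  have hsrel : ∀ i, SRel fun p => XU (Product.incG i p) := by
    intro i
    have h7 := h2 i
    unfold SRel
    have h8 : (List.ofFn fun j : Fin (n i + 1) => XU (Product.incG i (Sum.inr j))) =
        (List.ofFn fun j : Fin (n i) => X (Sum.inl (Sum.inr ⟨i, j⟩))).concat
          ((ZP (fun t => X (Sum.inr t)) (b i))⁻¹) := by
      rw [List.ofFn_succ', ← hXU2]
      congr 2
      funext j
      exact hXU1 (Sum.inr ⟨i, j⟩)
    have h9 : (List.ofFn fun l : Fin (g i) => XU (Product.incG i (Sum.inl (l, false))) *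
        XU (Product.incG i (Sum.inl (l, true))) * (XU (Product.incG i (Sum.inl (l, false))))⁻¹ *
        (XU (Product.incG i (Sum.inl (l, true))))⁻¹) =
        (List.ofFn fun l : Fin (g i) => X (Sum.inl (Sum.inl ⟨i, l, false⟩)) *
        X (Sum.inl (Sum.inl ⟨i, l, true⟩)) * (X (Sum.inl (Sum.inl ⟨i, l, false⟩)))⁻¹ *
          (X (Sum.inl (Sum.inl ⟨i, l, true⟩)))⁻¹) := by
      congr 1
      funext l
      have e1 : XU (Product.incG i (Sum.inl (l, false))) = X (Sum.inl (Sum.inl ⟨i, l, false⟩)) :=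
        hXU1 (Sum.inl ⟨i, l, false⟩)
      have e2 : XU (Product.incG i (Sum.inl (l, true))) = X (Sum.inl (Sum.inl ⟨i, l, true⟩)) :=
        hXU1 (Sum.inl ⟨i, l, true⟩)
      rw [e1, e2]
    change (List.ofFn fun l : Fin (g i) => XU (Product.incG i (Sum.inl (l, false))) *
        XU (Product.incG i (Sum.inl (l, true))) * (XU (Product.incG i (Sum.inl (l, false))))⁻¹ *
        (XU (Product.incG i (Sum.inl (l, true))))⁻¹).prod *
      (List.ofFn fun j : Fin (n i + 1) => XU (Product.incG i (Sum.inr j))).prod = 1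
    rw [h8, h9, List.prod_concat, ← mul_assoc, h7, mul_inv_cancel]
  have hX'F : ∀ q : GF g (PU P) (oU o), X' (Sum.map id Sum.inl q) =
      XU (bF g (PU P) (oU o) q) := by
    rintro (q | q)
    · rw [hX', hXU]; rfl
    · rw [hX', hXU]; rfl
  obtain ⟨y, hy⟩ : ∃ y : FreeGroup (GF g (PU P) (oU o)) →* SpecialLinearGroup (Fin r) ℂ,
      y = (FreeGroup.lift X').comp (inclZ _ _ s) := ⟨_, rfl⟩
  have hyof : ∀ q, y (FreeGroup.of q) = XU (bF g (PU P) (oU o) q) := by
    intro q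
    rw [hy, MonoidHom.comp_apply, inclZ, FreeGroup.map.of, FreeGroup.lift_apply_of, hX'F]
  have key : ∀ i, (∀ w ∈ RelO (g i) (PU P i) (oU o i), y (incF g (PU P) (oU o) i w) = 1) ∧
      ∀ p, y (incF g (PU P) (oU o) i (wO (g i) (PU P i) (oU o i) p)) =
        XU (Product.incG i p) := by
    intro i
    refine word_comp (fun p => XU (Product.incG i p)) (hsrel i)
      (y.comp (incF g (PU P) (oU o) i)) fun p => ?_
    rw [MonoidHom.comp_apply, incF, FreeGroup.map.of, hyof, bF_incS]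
  have key2 : ∀ p, y (aF g (PU P) (oU o) p) = XU p := by
    intro p
    obtain ⟨q, hq⟩ := Product.exists_incG p
    rw [hq, aF_incG]
    exact (key _).2 q
  have key3 : ∀ p, FreeGroup.lift X' (aZ g P o p) = X p := by
    rintro (p | t)
    · change FreeGroup.lift X' (inclZ _ _ s (aF g (PU P) (oU o) (up p))) = _
      have := key2 (up p)
      rw [hy, MonoidHom.comp_apply, hXU1] at this
      exact this
    · change FreeGroup.lift X' (FreeGroup.of (Sum.inr (Sum.inr t))) = _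
      rw [FreeGroup.lift_apply_of, hz']
  have hzq : ∀ e : Fin s → ℤ, FreeGroup.lift X' (zq (KK g P o) (II P) e) =
      ZP (fun t => X (Sum.inr t)) e := by
    intro e
    rw [map_zq']
    simp only [FreeGroup.lift_apply_of, hz']
  refine ⟨⟨?_, ?_, ?_⟩, key3⟩
  · rintro w (⟨v, hv, rfl⟩ | ⟨t, p, rfl⟩ | ⟨a, ha, rfl⟩ | ⟨q, hq, rfl⟩)
    · rw [← MonoidHom.comp_apply, ← hy]
      rcases hv with ⟨i, v, hv, rfl⟩ | ⟨i, j, p, q, hij, rfl⟩
      · exact (key i).1 v hv
      · rw [map_mul, map_mul, map_mul, map_inv, map_inv, mul_inv_eq_one, mul_inv_eq_iff_eq_mul,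
          hyof, hyof, bF_incS, bF_incS]
        exact hfac _ _ (by rw [Product.factor_incG, Product.factor_incG]; exact hij)
    · rw [map_commutatorElement, commutatorElement_eq_one_iff_mul_comm, FreeGroup.lift_apply_of,
        FreeGroup.lift_apply_of, hz']
      rcases p with p | p | t'
      · have := hX'F (Sum.inl p)
        rw [show X' (Sum.inl p) = XU (bF g (PU P) (oU o) (Sum.inl p)) from this]
        exact hcen t _
      · have := hX'F (Sum.inr p)
        rw [show X' (Sum.inr (Sum.inl p)) = XU (bF g (PU P) (oU o) (Sum.inr p)) from this]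
        exact hcen t _
      · rw [hz']
        exact h4 t _
    · rw [map_mul, map_inv, map_pow, hzq, FreeGroup.lift_apply_of, mul_inv_eq_one,
        show X' (Sum.inr (Sum.inl a.1)) = XU (bF g (PU P) (oU o) (Sum.inr a.1)) from
          hX'F (Sum.inr a.1)]
      rcases ha with ⟨i, j, h, rfl⟩ | ⟨i, rfl⟩
      · change XU (up (Sum.inr ⟨i, j⟩)) ^ m i j = _
        rw [hXU1]
        exact h5 i j
      · change XU (Sum.inr ⟨i, Fin.last (n i)⟩) ^ 1 = _
        rw [hXU2, pow_one, ← ZP_neg _ fun t t' => h4 t _]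
    · rw [hzq]
      rcases hq with hq | ⟨i, j, hm, rfl⟩
      · exact h6 q hq
      · rw [← h5 i j, hm, pow_zero]
  · rintro (⟨i, j, hj⟩ | t)
    · rw [show X' (Sum.inr (Sum.inl ⟨i, j, hj⟩)) = XU (bF g (PU P) (oU o) (Sum.inr ⟨i, j, hj⟩)) from
        hX'F (Sum.inr ⟨i, j, hj⟩), hXU]
      exact conj_word X₀ X hXX i j hj
    · rw [hz']
      exact hz t
  · intro W hW
    have hW' : IsInv X W := by
      have := hW.lift (aZ g P o)
      rwa [funext key3] at this
    obtain ⟨W', h7, h8⟩ := hss W hW'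
    refine ⟨W', ?_, h8⟩
    rw [hX']
    exact h7.lift (bZ g P o b)

theorem tg_to_pz (ho : ∀ i j, o i = some j → ¬ P i j)
    (X₀ : GensC g n s → SpecialLinearGroup (Fin r) ℂ) (hP : ∀ i j, m i j ≠ 0 → P i j)
    (Y : KK g P o ⊕ (II P ⊕ Fin s) → SpecialLinearGroup (Fin r) ℂ)
    (hY : Y ∈ TG (RZ g P o m b β Q) (CZ g P b X₀)) :
    (fun p => FreeGroup.lift Y (aZ g P o p)) ∈ PZ g P m b β Q X₀ := by
  obtain ⟨h1, h2, h3⟩ := hY
  obtain ⟨y, hy⟩ : ∃ y : FreeGroup (GF g (PU P) (oU o)) →* SpecialLinearGroup (Fin r) ℂ,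
      y = (FreeGroup.lift Y).comp (inclZ _ _ s) := ⟨_, rfl⟩
  have hyF : ∀ w ∈ RelF g (PU P) (oU o), y w = 1 := by
    intro w hw
    rw [hy]
    exact h1 _ (Or.inl ⟨w, hw, rfl⟩)
  have hyof : ∀ q, y (FreeGroup.of q) = Y (Sum.map id Sum.inl q) := by
    intro q
    rw [hy, MonoidHom.comp_apply, inclZ, FreeGroup.map.of, FreeGroup.lift_apply_of]
  obtain ⟨X, hX⟩ : ∃ X : GensC g n s → SpecialLinearGroup (Fin r) ℂ,
      X = fun p => FreeGroup.lift Y (aZ g P o p) := ⟨_, rfl⟩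
  rw [← hX]
  have hXl : ∀ p, X (Sum.inl p) = y (aF g (PU P) (oU o) (up p)) := by
    intro p
    rw [hX, hy]; rfl
  have hXz : ∀ t, X (Sum.inr t) = Y (Sum.inr (Sum.inr t)) := by
    intro t
    rw [hX]
    exact FreeGroup.lift_apply_of
  have hzq : ∀ e : Fin s → ℤ, FreeGroup.lift Y (zq (KK g P o) (II P) e) =
      ZP (fun t => X (Sum.inr t)) e := by
    intro e
    rw [map_zq']
    simp only [FreeGroup.lift_apply_of, hXz]
  have hcen : ∀ t w, Commute (X (Sum.inr t)) (FreeGroup.lift Y w) := by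
    intro t
    refine commute_of_gen _ _ fun p => ?_
    have := h1 _ (Or.inr (Or.inl ⟨t, p, rfl⟩))
    rw [map_commutatorElement, commutatorElement_eq_one_iff_mul_comm] at this
    rw [hXz, ← FreeGroup.lift_apply_of (f := Y) (x := Sum.inr (Sum.inr t))]
    exact this
  have hpunct : ∀ i (j : Fin (n i + 1)) (h : PU P i j),
      y (aF g (PU P) (oU o) (Sum.inr ⟨i, j⟩)) = Y (Sum.inr (Sum.inl ⟨i, ⟨j, h⟩⟩)) := by
    intro i j h
    have := aF_bF (g := g) (ho_U ho) (Sum.inr ⟨i, ⟨j, h⟩⟩)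
    change aF g (PU P) (oU o) (Sum.inr ⟨i, j⟩) = _ at this
    rw [this, hyof]
    rfl
  have hlast : ∀ i, y (aF g (PU P) (oU o) (Sum.inr ⟨i, Fin.last (n i)⟩)) =
      (ZP (fun t => X (Sum.inr t)) (b i))⁻¹ := by
    intro i
    rw [hpunct i _ PU_last]
    have := h1 _ (Or.inr (Or.inr (Or.inl ⟨_, Or.inr ⟨i, rfl⟩, rfl⟩)))
    rw [map_mul, map_inv, map_pow, hzq, FreeGroup.lift_apply_of, mul_inv_eq_one, pow_one,
      ZP_neg _ fun t t' => ?_] at this
    · exact this
    · have h4 := hcen t (aZ g P o (Sum.inr t'))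
      rw [hX] at h4 ⊢
      exact h4
  have hword : ∀ i (j : Fin (n i + 1)), PU P i j →
      FreeGroup.lift X (wU g b (Sum.inr ⟨i, j⟩)) = y (aF g (PU P) (oU o) (Sum.inr ⟨i, j⟩)) := by
    intro i j hj
    induction j using Fin.lastCases with
    | last => rw [wU_last, map_inv, lift_zw, hlast]
    | cast j =>
      have := wU_up (g := g) b (Sum.inr ⟨i, j⟩)
      change wU g b (Sum.inr ⟨i, j.castSucc⟩) = _ at this
      rw [this, FreeGroup.lift_apply_of, hXl]
      rfl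
  have hrep : IsRep (RelsC g n m b β Q) X := by
    refine (isRepC_iff g m b β Q X).2 ⟨fun i => ?_, fun p q hpq => ?_, fun t p => ?_,
      fun i j => ?_, fun q hq => ?_⟩
    · have h4 := srel_word (y.comp (incF g (PU P) (oU o) i)) fun w hw =>
        hyF _ (Or.inl ⟨i, w, hw, rfl⟩)
      unfold SRel at h4
      have h5 : ∀ p, (y.comp (incF g (PU P) (oU o) i)) (wO (g i) (PU P i) (oU o i) p) =
          y (aF g (PU P) (oU o) (Product.incG i p)) := by
        intro p
        rw [aF_incG]; rfl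
      simp only [h5] at h4
      rw [List.ofFn_succ', List.prod_concat] at h4
      rw [← mul_assoc, show y (aF g (PU P) (oU o) (Product.incG i (Sum.inr (Fin.last (n i))))) =
        (ZP (fun t => X (Sum.inr t)) (b i))⁻¹ from hlast i, mul_inv_eq_one] at h4
      rw [← h4]
      simp only [hXl]
      rfl
    · rw [hXl, hXl]
      obtain ⟨p', hp'⟩ := Product.exists_incG (up p)
      obtain ⟨q', hq'⟩ := Product.exists_incG (up q)
      rw [hp', hq', aF_incG, aF_incG]
      exact commute_words y hyF (by rw [factor_up, factor_up]; exact hpq) _ _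
    · rw [show X p = FreeGroup.lift Y (aZ g P o p) by rw [hX]]
      exact hcen t _
    · by_cases h : P i j
      · have h4 := h1 _ (Or.inr (Or.inr (Or.inl ⟨_, Or.inl ⟨i, j, h, rfl⟩, rfl⟩)))
        rw [map_mul, map_inv, map_pow, hzq, FreeGroup.lift_apply_of, mul_inv_eq_one] at h4
        rw [hXl]
        change y (aF g (PU P) (oU o) (Sum.inr ⟨i, j.castSucc⟩)) ^ m i j = _
        rw [hpunct i _ (PU_castSucc.2 h)]
        exact h4
      · have hm : m i j = 0 := by
          by_contra h0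
          exact h (hP i j h0)
        have h4 := h1 _ (Or.inr (Or.inr (Or.inr ⟨_, Or.inr ⟨i, j, hm, rfl⟩, rfl⟩)))
        rw [hzq] at h4
        rw [hm, pow_zero, h4]
    · rw [← hzq]
      exact h1 _ (Or.inr (Or.inr (Or.inr ⟨q, Or.inl hq, rfl⟩)))
  have hbZ : ∀ q, FreeGroup.lift X (bZ g P o b q) = Y q := by
    rintro (⟨i, p⟩ | ⟨i, ⟨j, hj⟩⟩ | t)
    · rcases p with p | ⟨j, hj⟩
      · change FreeGroup.lift X (FreeGroup.of (Sum.inl (Sum.inl ⟨i, p⟩))) = _
        rw [FreeGroup.lift_apply_of, hXl]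
        have := aF_bF (g := g) (ho_U ho) (Sum.inl ⟨i, Sum.inl p⟩)
        change aF g (PU P) (oU o) (Sum.inl ⟨i, p⟩) = _ at this
        change y (aF g (PU P) (oU o) (Sum.inl ⟨i, p⟩)) = _
        rw [this, hyof]
        rfl
      · have h5 : ∃ j', j = Fin.castSucc j' := by
          induction j using Fin.lastCases with
          | last => exact absurd PU_last hj.1
          | cast j => exact ⟨j, rfl⟩
        obtain ⟨j', rfl⟩ := h5
        have := wU_up (g := g) b (Sum.inr ⟨i, j'⟩)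
        change FreeGroup.lift X (wU g b (Sum.inr ⟨i, j'.castSucc⟩)) = _
        change wU g b (Sum.inr ⟨i, j'.castSucc⟩) = _ at this
        rw [this, FreeGroup.lift_apply_of, hXl]
        have h6 := aF_bF (g := g) (ho_U ho) (Sum.inl ⟨i, Sum.inr ⟨j'.castSucc, hj⟩⟩)
        change aF g (PU P) (oU o) (Sum.inr ⟨i, j'.castSucc⟩) = _ at h6
        change y (aF g (PU P) (oU o) (Sum.inr ⟨i, j'.castSucc⟩)) = _
        rw [h6, hyof]
        rfl
    · change FreeGroup.lift X (wU g b (Sum.inr ⟨i, j⟩)) = _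
      rw [hword i j hj, hpunct i j hj]
    · change FreeGroup.lift X (FreeGroup.of (Sum.inr t)) = _
      rw [FreeGroup.lift_apply_of, hXz]
  refine ⟨hrep, ?_, fun i j h => ?_, fun t => ?_, fun i => ?_⟩
  · intro W hW
    have hW' : IsInv Y W := by
      have := hW.lift (bZ g P o b)
      rwa [funext hbZ] at this
    obtain ⟨W', h5, h6⟩ := h3 W hW'
    refine ⟨W', ?_, h6⟩
    rw [hX]
    exact h5.lift (aZ g P o)
  · have h4 := h2 (Sum.inl ⟨i, ⟨j.castSucc, PU_castSucc.2 h⟩⟩)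
    rw [← hpunct i _ (PU_castSucc.2 h)] at h4
    have h5 := wU_up (g := g) b (Sum.inr ⟨i, j⟩)
    change wU g b (Sum.inr ⟨i, j.castSucc⟩) = _ at h5
    change IsConj (FreeGroup.lift X₀ (wU g b (Sum.inr ⟨i, j.castSucc⟩))) _ at h4
    rw [h5, FreeGroup.lift_apply_of] at h4
    rw [hXl]
    exact h4
  · rw [hXz]
    exact h2 (Sum.inr t)
  · have h4 := h2 (Sum.inl ⟨i, ⟨Fin.last (n i), PU_last⟩⟩)
    rw [← hpunct i _ PU_last, hlast] at h4
    change IsConj (FreeGroup.lift X₀ (wU g b (Sum.inr ⟨i, Fin.last (n i)⟩))) _ at h4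
    rw [wU_last, map_inv, lift_zw] at h4
    obtain ⟨U, hU⟩ := isConj_iff.1 h4
    refine isConj_iff.2 ⟨U, ?_⟩
    rw [← _root_.inv_inj, conj_inv]
    exact hU

theorem pz_dense (h01 : Vale.Agent.P002L.G01Irr) (hA : Vale.Agent.P002B.G0All)
    (ho : ∀ i j, o i = some j → ¬ P i j)
    (hn : ∀ i, o i = none → ∀ j, P i j) (hP : ∀ i j, m i j ≠ 0 → P i j)
    (X₀ : GensC g n s → SpecialLinearGroup (Fin r) ℂ) (E : Subgroup ℂˣ)
    (h1 : ∀ i j, P i j → EigIn E ((X₀ (Sum.inl (Sum.inr ⟨i, j⟩))).1))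
    (h2 : ∀ t, EigIn E ((X₀ (Sum.inr t)).1))
    (h3 : ∀ i, EigIn E (((ZP (fun t => X₀ (Sum.inr t)) (b i))⁻¹).1))
    (L : IntermediateField ℚ ℂ) (hL : FiniteDimensional ℚ L)
    (hc : CoefOK (phiO (algebraMap L ℂ)) E (r * r))
    (hT : Vale.Agent.P002R.TorOK (phiO (algebraMap L ℂ)) E r) :
    IsDenseRep L (PZ g P m b β Q X₀) := by
  refine tietze' _ (TG (RZ g P o m b β Q) (CZ g P b X₀)) (aZ g P o)
    (fun X hX => ⟨_, pz_to_tg X₀ X hX hP⟩) (tg_to_pz ho X₀ hP) ?_
  refine density_gen (RZ g P o m b β Q) ?_ _ E (fun _ => QD E False False)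
    (fun p => classOK_QD E _ _) ?_ L hL (Vale.Agent.P002B.CoefOK.of_sq hc le_rfl) ?_
  · exact relZ_charOK (famRel_charOK _ fun i => RelO_charOK (hn_U hn i)) _ _
  · rintro (⟨i, j, hj⟩ | t)
    · refine ⟨?_, False.elim, False.elim⟩
      change EigIn E (FreeGroup.lift X₀ (wU g b (Sum.inr ⟨i, j⟩))).1
      induction j using Fin.lastCases with
      | last => rw [wU_last, map_inv, lift_zw]; exact h3 i
      | cast j =>
        have h5 := wU_up (g := g) b (Sum.inr ⟨i, j⟩)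
        change wU g b (Sum.inr ⟨i, j.castSucc⟩) = _ at h5
        rw [h5, FreeGroup.lift_apply_of]
        exact h1 i j (PU_castSucc.1 hj)
    · exact ⟨h2 t, False.elim, False.elim⟩
  · intro r' hr' hr'0
    refine relZ_irrDenseQ _ E _ _ _ hr'0 ?_
    refine fam_irrDenseQ _ E r k _ _ (fun i (_ : IO (PU P i)) => QD E False False)
      (fun i j => classOK_QD E _ _) _ (fun i => ?_) r' hr' hr'0
    exact Vale.Agent.P002B.relO_irrDenseQ4 h01 hA _ E hc (hn_U hn i) fun h h1 => Or.inr hT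

end main

end Vale.Agent.P002.H326
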