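import Mathlib
import Vale.Agent.P002R.YOrbStmt

/-!
# Semisimple tuples: irreducible subspaces, diagonalisation of the central elements
-/

namespace Vale.Agent.P002.H326

open Matrix Vale.Agent.P002R.Orb

variable {G : Type} {r s : ℕ}

/-- Irreducible subspaces. -/
def Irr (X : G → SpecialLinearGroup (Fin r) ℂ) (W : Submodule ℂ (Fin r → ℂ)) : Prop :=
  W ≠ ⊥ ∧ IsInv X W ∧ ∀ W' ≤ W, IsInv X W' → W' = ⊥ ∨ W' = W

theorem isInv_sup {X : G → SpecialLinearGroup (Fin r) ℂ} {W W' : Submodule ℂ (Fin r → ℂ)}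
    (h : IsInv X W) (h' : IsInv X W') : IsInv X (W ⊔ W') := by
  intro p v hv
  obtain ⟨a, ha, b, hb, rfl⟩ := Submodule.mem_sup.1 hv
  rw [Matrix.mulVec_add]
  exact Submodule.add_mem_sup (h p a ha) (h' p b hb)

theorem isInv_inf {X : G → SpecialLinearGroup (Fin r) ℂ} {W W' : Submodule ℂ (Fin r → ℂ)}
    (h : IsInv X W) (h' : IsInv X W') : IsInv X (W ⊓ W') :=
  fun p v hv => ⟨h p v hv.1, h' p v hv.2⟩

theorem isInv_sSup {X : G → SpecialLinearGroup (Fin r) ℂ} {A : Set (Submodule ℂ (Fin r → ℂ))}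
    (h : ∀ W ∈ A, IsInv X W) : IsInv X (sSup A) := by
  intro p
  have h1 : sSup A ≤ (sSup A).comap (Matrix.mulVecLin (X p).1) := by
    refine sSup_le fun W hW v hv => ?_
    exact (le_sSup hW : W ≤ sSup A) (h W hW p v hv)
  exact fun v hv => h1 hv

theorem exists_irr (X : G → SpecialLinearGroup (Fin r) ℂ) :
    ∀ (d : ℕ) (W : Submodule ℂ (Fin r → ℂ)), Module.finrank ℂ W ≤ d → W ≠ ⊥ → IsInv X W →
      ∃ U ≤ W, Irr X U := by
  intro d
  induction d with
  | zero =>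
    intro W hd hW _
    exact absurd (Submodule.finrank_eq_zero.1 (Nat.le_zero.1 hd)) hW
  | succ d ih =>
    intro W hd hW hi
    by_cases h : ∀ W' ≤ W, IsInv X W' → W' = ⊥ ∨ W' = W
    · exact ⟨W, le_rfl, hW, hi, h⟩
    · push Not at h
      obtain ⟨W', h1, h2, h3, h4⟩ := h
      have h5 : Module.finrank ℂ W' < Module.finrank ℂ W :=
        Submodule.finrank_lt_finrank_of_lt (lt_of_le_of_ne h1 h4)
      obtain ⟨U, h6, h7⟩ := ih W' (by omega) h3 h2
      exact ⟨U, h6.trans h1, h7⟩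

theorem sSup_irr {X : G → SpecialLinearGroup (Fin r) ℂ}
    (h : ∀ W, IsInv X W → ∃ W', IsInv X W' ∧ IsCompl W W') :
    sSup {W | Irr X W} = ⊤ := by
  obtain ⟨W', h1, h2⟩ := h (sSup {W | Irr X W}) (isInv_sSup fun W hW => hW.2.1)
  by_cases h3 : W' = ⊥
  · rw [h3] at h2
    have := h2.sup_eq_top
    rwa [sup_bot_eq] at this
  · obtain ⟨U, h4, h5⟩ := exists_irr X _ W' le_rfl h3 h1
    have h6 : U ≤ sSup {W | Irr X W} := le_sSup h5
    exact absurd (le_bot_iff.1 (h2.disjoint h6 h4)) h5.1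

theorem isSS_of_sSup {X : G → SpecialLinearGroup (Fin r) ℂ}
    (A : Set (Submodule ℂ (Fin r → ℂ))) (hA : ∀ W ∈ A, Irr X W) (h : sSup A = ⊤) :
    ∀ W, IsInv X W → ∃ W', IsInv X W' ∧ IsCompl W W' := by
  intro W hW
  -- a maximal invariant subspace with trivial intersection
  have key : ∀ d : ℕ, ∀ W' : Submodule ℂ (Fin r → ℂ), IsInv X W' → Disjoint W W' →
      r - Module.finrank ℂ W' ≤ d → ∃ W', IsInv X W' ∧ IsCompl W W' := by
    intro d
    induction d with
    | zero =>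
      intro W' h1 h2 h3
      refine ⟨W', h1, h2, ?_⟩
      have h4 : W' = ⊤ := by
        apply Submodule.eq_top_of_finrank_eq
        have := Submodule.finrank_le W'
        rw [Module.finrank_fin_fun] at this ⊢
        omega
      rw [h4]
      exact codisjoint_top_right
    | succ d ih =>
      intro W' h1 h2 h3
      by_cases h4 : W ⊔ W' = ⊤
      · exact ⟨W', h1, h2, codisjoint_iff.2 h4⟩
      · have h5 : ∃ U ∈ A, ¬ U ≤ W ⊔ W' := by
          by_contra h5
          push Not at h5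
          exact h4 (top_le_iff.1 (h ▸ sSup_le h5))
        obtain ⟨U, hU, hU'⟩ := h5
        have h6 := (hA U hU).2.2 (U ⊓ (W ⊔ W')) inf_le_left
          (isInv_inf (hA U hU).2.1 (isInv_sup hW h1))
        have h7 : U ⊓ (W ⊔ W') = ⊥ := h6.resolve_right fun h8 => hU' (by
          rw [← h8]; exact inf_le_right)
        have h8 : Disjoint (W ⊔ W') U := by
          rw [disjoint_iff, inf_comm]
          exact h7
        have h9 : Disjoint W (W' ⊔ U) := h2.disjoint_sup_right_of_disjoint_sup_left h8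
        refine ih (W' ⊔ U) (isInv_sup h1 (hA U hU).2.1) h9 ?_
        have h10 : W' < W' ⊔ U := by
          refine lt_of_le_of_ne le_sup_left fun h11 => hU' ?_
          have : U ≤ W' := by rw [h11]; exact le_sup_right
          exact this.trans le_sup_right
        have h11 := Submodule.finrank_lt_finrank_of_lt h10
        have h12 := Submodule.finrank_le (W' ⊔ U)
        rw [Module.finrank_fin_fun] at h12
        omega
  exact key _ ⊥ (fun p v hv => by
    rw [Submodule.mem_bot] at hv ⊢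
    rw [hv, Matrix.mulVec_zero]) disjoint_bot_right le_rfl

theorem irr_scalar {X : G → SpecialLinearGroup (Fin r) ℂ} {W : Submodule ℂ (Fin r → ℂ)}
    (hW : Irr X W) (M : Matrix (Fin r) (Fin r) ℂ) (hM : ∀ p, M * (X p).1 = (X p).1 * M)
    (hMW : ∀ v ∈ W, M *ᵥ v ∈ W) : ∃ ζ : ℂ, ∀ v ∈ W, M *ᵥ v = ζ • v := by
  have hnt : Nontrivial W := Submodule.nontrivial_iff_ne_bot.2 hW.1
  obtain ⟨T, hT⟩ : ∃ T : Module.End ℂ W, ∀ v, ((T v : W) : Fin r → ℂ) = M *ᵥ v :=
    ⟨(Matrix.mulVecLin M).restrict hMW, fun v => rfl⟩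
  obtain ⟨ζ, hζ⟩ := Module.End.exists_eigenvalue T
  obtain ⟨v, hv⟩ := hζ.exists_hasEigenvector
  obtain ⟨W', hW'⟩ : ∃ W' : Submodule ℂ (Fin r → ℂ), ∀ v, v ∈ W' ↔ v ∈ W ∧ M *ᵥ v = ζ • v := by
    refine ⟨W ⊓ LinearMap.ker (Matrix.mulVecLin M - ζ • LinearMap.id), fun v => ?_⟩
    rw [Submodule.mem_inf, LinearMap.mem_ker, LinearMap.sub_apply, sub_eq_zero]
    rfl
  have h1 : W' = W := by
    refine (hW.2.2 W' (fun v hv => ((hW' v).1 hv).1) fun p v hv => ?_).resolve_left ?_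
    · rw [hW'] at hv ⊢
      refine ⟨hW.2.1 p v hv.1, ?_⟩
      rw [Matrix.mulVec_mulVec, hM, ← Matrix.mulVec_mulVec, hv.2, Matrix.mulVec_smul]
    · intro h0
      have h2 : (v : Fin r → ℂ) ∈ W' := by
        rw [hW']
        refine ⟨v.2, ?_⟩
        rw [← hT, hv.apply_eq_smul]
        rfl
      rw [h0, Submodule.mem_bot] at h2
      exact hv.2 (Subtype.ext h2)
  refine ⟨ζ, fun v hv => ?_⟩
  rw [← h1, hW'] at hv
  exact hv.2

/-- Simultaneous diagonalisation of central elements, by a matrix of determinant one. -/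
theorem exists_diag {X : G → SpecialLinearGroup (Fin r) ℂ} (hr : 0 < r) (z : Fin s → G)
    (hz : ∀ t p, Commute (X (z t)) (X p))
    (hss : ∀ W, IsInv X W → ∃ W', IsInv X W' ∧ IsCompl W W') :
    ∃ (U : SpecialLinearGroup (Fin r) ℂ) (ζ : Fin s → Fin r → ℂ),
      ∀ t, (X (z t)).1 * U.1 = U.1 * diagonal (ζ t) := by
  obtain ⟨J, hJ⟩ : ∃ J : Set (Fin r → ℂ), J = {v | ∃ ζ : Fin s → ℂ, ∀ t,
      (X (z t)).1 *ᵥ v = ζ t • v} := ⟨_, rfl⟩
  have hJs : ⊤ ≤ Submodule.span ℂ J := by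
    rw [← sSup_irr hss]
    refine sSup_le fun W hW v hv => Submodule.subset_span ?_
    rw [hJ]
    have h1 : ∀ t, ∃ ζ : ℂ, ∀ v ∈ W, (X (z t)).1 *ᵥ v = ζ • v := fun t =>
      irr_scalar hW _ (fun p => congrArg Subtype.val (hz t p).eq) fun v hv => hW.2.1 _ v hv
    choose ζ hζ using h1
    exact ⟨ζ, fun t => hζ t v hv⟩
  obtain ⟨B₀, hB₀⟩ : ∃ B₀, B₀ = Module.Basis.ofSpan hJs := ⟨_, rfl⟩
  have hmem : ∀ i, B₀ i ∈ J := fun i => by
    rw [hB₀]
    exact Module.Basis.ofSpan_subset hJs (Set.mem_range_self i)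
  have hfin : Finite ((linearIndepOn_empty ℂ id).extend (Set.empty_subset J)) :=
    Module.Finite.finite_basis B₀
  have hft : Fintype ((linearIndepOn_empty ℂ id).extend (Set.empty_subset J)) :=
    Fintype.ofFinite _
  have hcard : Fintype.card ((linearIndepOn_empty ℂ id).extend (Set.empty_subset J)) = r := by
    have := Module.finrank_eq_card_basis B₀
    rw [Module.finrank_fin_fun] at this
    exact this.symm
  obtain ⟨B, hB⟩ : ∃ B : Module.Basis (Fin r) ℂ (Fin r → ℂ), ∀ i, B i ∈ J :=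
    ⟨B₀.reindex (Fintype.equivFinOfCardEq hcard), fun i => by
      rw [Module.Basis.reindex_apply]; exact hmem _⟩
  obtain ⟨U₀, hU₀⟩ : ∃ U₀ : Matrix (Fin r) (Fin r) ℂ, U₀ = Matrix.of fun i j => B j i := ⟨_, rfl⟩
  have hdet : U₀.det ≠ 0 := by
    have h1 : IsUnit U₀ := by
      rw [← Matrix.linearIndependent_cols_iff_isUnit]
      have h2 : U₀.col = B := by
        rw [hU₀]; rfl
      rw [h2]
      exact B.linearIndependent
    exact ((Matrix.isUnit_iff_isUnit_det _).1 h1).ne_zero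
  have h3 : ∀ j, ∃ ζ : Fin s → ℂ, ∀ t, (X (z t)).1 *ᵥ (B j) = ζ t • (B j) := fun j => by
    have := hB j
    rwa [hJ] at this
  choose ζ hζ using h3
  have h4 : ∀ t, (X (z t)).1 * U₀ = U₀ * diagonal fun j => ζ j t := by
    intro t
    ext i j
    rw [Matrix.mul_diagonal]
    have h5 := congrFun (hζ j t) i
    rw [hU₀]
    simp only [Matrix.of_apply]
    rw [Pi.smul_apply, smul_eq_mul] at h5
    rw [mul_comm, ← h5]
    rfl
  obtain ⟨D, hD⟩ : ∃ D : Fin r → ℂ, D = Function.update (fun _ => (1 : ℂ)) ⟨0, hr⟩ (U₀.det)⁻¹ := ⟨_, rfl⟩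
  refine ⟨⟨U₀ * diagonal D, ?_⟩, fun t j => ζ j t, fun t => ?_⟩
  · rw [Matrix.det_mul, Matrix.det_diagonal, hD, Finset.prod_update_of_mem (Finset.mem_univ _)]
    simp [hdet]
  · change (X (z t)).1 * (U₀ * diagonal D) = U₀ * diagonal D * diagonal _
    rw [← Matrix.mul_assoc, h4, Matrix.mul_assoc, Matrix.mul_assoc, Matrix.diagonal_mul_diagonal,
      Matrix.diagonal_mul_diagonal]
    congr 2
    funext j
    exact mul_comm _ _

end Vale.Agent.P002.H326
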