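import Mathlib

/-!
# Characters of a finitely generated group modulo prescribed values
-/

namespace Vale.Agent.P002.H326

theorem exists_charData {G : Type} [Finite G] (R : Set (FreeGroup G)) (P : Set G) :
    ∃ (J : Type) (_ : Fintype J) (_ : DecidableEq J) (φ : J → FreeGroup G →* Multiplicative ℤ)
      (h : J → FreeGroup G) (M : ℕ),
      0 < M ∧ (∀ l, ∀ w ∈ R, φ l w = 1) ∧ (∀ l, ∀ p ∈ P, φ l (FreeGroup.of p) = 1) ∧
      (∀ l l', φ l (h l') = if l = l' then Multiplicative.ofAdd 1 else 1) ∧
      ∀ (B : Type) [CommGroup B] (χ : FreeGroup G →* B) (B₀ : Subgroup B), (∀ w ∈ R, χ w = 1) →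
        (∀ p ∈ P, χ (FreeGroup.of p) ∈ B₀) →
        ∀ w, (χ w * ∏ l, χ (h l) ^ (-(φ l w).toAdd)) ^ M ∈ B₀ := by
  obtain ⟨R', hR'⟩ : ∃ R' : Set (FreeGroup G), R' = R ∪ FreeGroup.of '' P := ⟨_, rfl⟩
  have hfg : Group.FG (Abelianization (PresentedGroup R')) := by
    have h1 : Function.Surjective ((Abelianization.of (G := PresentedGroup R')).comp
        (PresentedGroup.mk R')) :=
      (QuotientGroup.mk_surjective).comp (PresentedGroup.mk_surjective R')
    exact Group.fg_of_surjective h1
  obtain ⟨ι, n, hι, hn, p, hp, e, ⟨f⟩⟩ := CommGroup.equiv_free_prod_prod_multiplicative_zmod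
    (Abelianization (PresentedGroup R'))
  obtain ⟨π, hπ⟩ : ∃ π, π = (Abelianization.of (G := PresentedGroup R')).comp
        (PresentedGroup.mk R') := ⟨_, rfl⟩
  have hsurj : Function.Surjective π := by
    rw [hπ]
    exact (QuotientGroup.mk_surjective).comp (PresentedGroup.mk_surjective R')
  have hker : ∀ w ∈ R', π w = 1 := by
    intro w hw
    rw [hπ, MonoidHom.comp_apply]
    have : PresentedGroup.mk R' w = 1 := PresentedGroup.one_of_mem hw
    rw [this, map_one]
  classical
  have hh : ∀ l : n, ∃ h, f (π h) = (Pi.mulSingle l (Multiplicative.ofAdd 1), 1) := by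
    intro l
    obtain ⟨h, hh⟩ := hsurj (f.symm (Pi.mulSingle l (Multiplicative.ofAdd 1), 1))
    exact ⟨h, by rw [hh, MulEquiv.apply_symm_apply]⟩
  choose h hh using hh
  refine ⟨n, hn, inferInstance, fun l => ((Pi.evalMonoidHom (fun _ => Multiplicative ℤ) l).comp
    (MonoidHom.fst _ _)).comp (f.toMonoidHom.comp π), h, ∏ i, p i ^ e i, ?_, ?_, ?_, ?_, ?_⟩
  · exact Finset.prod_pos fun i _ => pow_pos (hp i).pos _
  · intro l w hw
    have := hker w (by rw [hR']; exact Or.inl hw)
    simp [this]
  · intro l q hq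
    have := hker (FreeGroup.of q) (by rw [hR']; exact Or.inr ⟨q, hq, rfl⟩)
    simp [this]
  · intro l l'
    simp only [MonoidHom.comp_apply, MulEquiv.toMonoidHom_eq_coe, MonoidHom.coe_coe, hh,
      MonoidHom.coe_fst, Pi.evalMonoidHom_apply]
    rw [Pi.mulSingle_apply]
  · intro B _ χ B₀ hR hP w
    obtain ⟨χ', hχ'⟩ : ∃ χ' : Abelianization (PresentedGroup R') →* B ⧸ B₀,
        ∀ w, χ' (π w) = (χ w : B ⧸ B₀) := by
      have h1 : ∀ w ∈ R', ((QuotientGroup.mk' B₀).comp χ) w = 1 := by
        intro w hw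
        rw [hR'] at hw
        rcases hw with hw | ⟨q, hq, rfl⟩
        · rw [MonoidHom.comp_apply, hR w hw, map_one]
        · rw [MonoidHom.comp_apply]
          exact (QuotientGroup.eq_one_iff _).2 (hP q hq)
      have h2 : Subgroup.normalClosure R' ≤ ((QuotientGroup.mk' B₀).comp χ).ker :=
        Subgroup.normalClosure_le_normal fun w hw => h1 w hw
      refine ⟨Abelianization.lift (QuotientGroup.lift _ ((QuotientGroup.mk' B₀).comp χ) h2), ?_⟩
      intro w
      rw [hπ]
      rfl
    obtain ⟨α, hα⟩ : ∃ α, α = π w * ∏ l, π (h l) ^ (-((((Pi.evalMonoidHom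
        (fun _ => Multiplicative ℤ) l).comp (MonoidHom.fst _ _)).comp
          (f.toMonoidHom.comp π)) w).toAdd) := ⟨_, rfl⟩
    have h1 : f α = (1, (f (π w)).2) := by
      rw [hα, map_mul, map_prod]
      simp only [map_zpow, hh]
      apply Prod.ext
      · rw [Prod.fst_mul, Prod.fst_prod]
        funext l
        rw [Pi.mul_apply, Finset.prod_apply]
        simp only [Prod.pow_fst, Pi.pow_apply, Pi.mulSingle_apply]
        rw [Finset.prod_eq_single l]
        · simp only [if_true]
          apply Multiplicative.toAdd.injective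
          simp
        · intro l' _ hl'
          rw [if_neg (Ne.symm hl'), one_zpow]
        · intro h0
          exact absurd (Finset.mem_univ _) h0
      · rw [Prod.snd_mul, Prod.snd_prod]
        simp only [Prod.pow_snd, one_zpow, Finset.prod_const_one, mul_one]
    have h2 : α ^ (∏ i, p i ^ e i) = 1 := by
      apply f.injective
      rw [map_pow, map_one, h1]
      apply Prod.ext
      · simp
      · simp only [Prod.pow_snd, Prod.snd_one]
        funext i
        rw [Pi.pow_apply, Pi.one_apply]
        obtain ⟨c, hc⟩ : p i ^ e i ∣ ∏ i, p i ^ e i := Finset.dvd_prod_of_mem _ (Finset.mem_univ i)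
        rw [hc, pow_mul]
        have h3 : ((f (π w)).2 i) ^ (p i ^ e i) = 1 := by
          apply Multiplicative.toAdd.injective
          rw [toAdd_pow, toAdd_one, nsmul_eq_mul, ZMod.natCast_self, zero_mul]
        rw [h3, one_pow]
    have h3 := congrArg χ' h2
    rw [map_pow, map_one, hα, map_mul, map_prod] at h3
    simp only [map_zpow, hχ'] at h3
    rw [← QuotientGroup.eq_one_iff]
    rw [← h3]
    simp

end Vale.Agent.P002.H326
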