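import Vale.Agent.P002.H326.C
import Vale.Agent.P002.H326.E

/-!
# Twisting the blocks of a representation
-/

namespace Vale.Agent.P002.H326

open Matrix Vale.Agent.P002R.Orb

variable {G : Type} {r s : ℕ}

theorem sl_mul (x y : SpecialLinearGroup (Fin r) ℂ) : (x * y).1 = x.1 * y.1 := rfl

theorem sl_one : (1 : SpecialLinearGroup (Fin r) ℂ).1 = 1 := rfl

/-- The idempotent of a block. -/
def DD (c : Fin r → Fin r) (a : Fin r) : Matrix (Fin r) (Fin r) ℂ :=
  diagonal fun i => if c i = a then 1 else 0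

/-- Block diagonal matrices. -/
def BD (c : Fin r → Fin r) (M : Matrix (Fin r) (Fin r) ℂ) : Prop := ∀ a, M * DD c a = DD c a * M

/-- Block scalar matrices. -/
def BS (c : Fin r → Fin r) (ψ : Fin r → ℂ) : Matrix (Fin r) (Fin r) ℂ := diagonal fun i => ψ (c i)

theorem BS_eq_sum (c : Fin r → Fin r) (ψ : Fin r → ℂ) : BS c ψ = ∑ a, ψ a • DD c a := by
  ext i j
  rw [Matrix.sum_apply]
  simp only [BS, DD, Matrix.smul_apply, Matrix.diagonal_apply, smul_eq_mul]
  by_cases h : i = j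
  · subst h
    simp
  · simp [h]

theorem BD.comm_BS {c : Fin r → Fin r} {M : Matrix (Fin r) (Fin r) ℂ} (h : BD c M)
    (ψ : Fin r → ℂ) : M * BS c ψ = BS c ψ * M := by
  rw [BS_eq_sum, Matrix.mul_sum, Matrix.sum_mul]
  refine Finset.sum_congr rfl fun a _ => ?_
  rw [Matrix.mul_smul, Matrix.smul_mul, h a]

theorem BD_BS (c : Fin r → Fin r) (ψ : Fin r → ℂ) : BD c (BS c ψ) := by
  intro a
  rw [BS, DD, Matrix.diagonal_mul_diagonal, Matrix.diagonal_mul_diagonal]
  congr 1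
  funext i
  exact mul_comm _ _

theorem BD.mul {c : Fin r → Fin r} {M N : Matrix (Fin r) (Fin r) ℂ} (hM : BD c M) (hN : BD c N) :
    BD c (M * N) := by
  intro a
  rw [Matrix.mul_assoc, hN a, ← Matrix.mul_assoc, hM a, Matrix.mul_assoc]

theorem BD_one (c : Fin r → Fin r) : BD c 1 := by
  intro a
  rw [Matrix.one_mul, Matrix.mul_one]

theorem DD_sq (c : Fin r → Fin r) (a : Fin r) : DD c a * DD c a = DD c a := by
  rw [DD, Matrix.diagonal_mul_diagonal]
  congr 1
  funext i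
  split_ifs <;> simp

theorem DD_ne (c : Fin r → Fin r) {a b : Fin r} (h : a ≠ b) : DD c a * DD c b = 0 := by
  rw [DD, DD, Matrix.diagonal_mul_diagonal, ← Matrix.diagonal_zero]
  congr 1
  funext i
  by_cases h1 : c i = a
  · rw [if_pos h1, if_neg (by rw [h1]; exact h), mul_zero]
  · rw [if_neg h1, zero_mul]

theorem DD_sum (c : Fin r → Fin r) : ∑ a, DD c a = 1 := by
  have := BS_eq_sum c fun _ => 1
  simp only [one_smul] at this
  rw [← this, BS, Matrix.diagonal_one]

/-- The determinant of a block. -/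
def bdet (c : Fin r → Fin r) (a : Fin r) (M : Matrix (Fin r) (Fin r) ℂ) : ℂ :=
  (M * DD c a + (1 - DD c a)).det

theorem bdet_mul {c : Fin r → Fin r} (a : Fin r) {M N : Matrix (Fin r) (Fin r) ℂ}
    (hN : BD c N) : bdet c a (M * N) = bdet c a M * bdet c a N := by
  unfold bdet
  rw [← Matrix.det_mul]
  congr 1
  have h1 := hN a
  have h2 := DD_sq c a
  obtain ⟨D, hD⟩ : ∃ D, D = DD c a := ⟨_, rfl⟩
  rw [← hD] at h1 h2 ⊢
  have e1 : M * D * (N * D) = M * N * D := by
    rw [Matrix.mul_assoc, ← Matrix.mul_assoc D N D, ← h1, Matrix.mul_assoc N D D, h2,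
      ← Matrix.mul_assoc]
  have e2 : M * D * (1 - D) = 0 := by
    rw [Matrix.mul_assoc, Matrix.mul_sub, Matrix.mul_one, h2, sub_self, Matrix.mul_zero]
  have e3 : (1 - D) * (N * D) = 0 := by
    rw [h1, ← Matrix.mul_assoc, Matrix.sub_mul, Matrix.one_mul, h2, sub_self, Matrix.zero_mul]
  have e4 : (1 - D) * (1 - D) = 1 - D := by
    rw [Matrix.mul_sub, Matrix.mul_one, Matrix.sub_mul, Matrix.one_mul, h2, sub_self, sub_zero]
  rw [Matrix.add_mul, Matrix.mul_add, Matrix.mul_add, e1, e2, e3, e4, add_zero, zero_add]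

theorem bdet_one (c : Fin r → Fin r) (a : Fin r) : bdet c a 1 = 1 := by
  unfold bdet
  rw [Matrix.one_mul, add_sub_cancel, Matrix.det_one]

theorem bdet_BS (c : Fin r → Fin r) (a : Fin r) (ψ : Fin r → ℂ) :
    bdet c a (BS c ψ) = ψ a ^ (Finset.univ.filter fun i => c i = a).card := by
  unfold bdet
  have h1 : BS c ψ * DD c a + (1 - DD c a) = diagonal fun i => if c i = a then ψ a else 1 := by
    rw [BS, DD, Matrix.diagonal_mul_diagonal, ← Matrix.diagonal_one, Matrix.diagonal_sub,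
      Matrix.diagonal_add]
    congr 1
    funext i
    by_cases h : c i = a
    · simp [h]
    · simp [h]
  rw [h1, Matrix.det_diagonal, Finset.prod_ite, Finset.prod_const_one, mul_one, Finset.prod_const]

theorem prod_bdet {c : Fin r → Fin r} {M : Matrix (Fin r) (Fin r) ℂ} (h : BD c M) :
    ∏ a, bdet c a M = M.det := by
  have key : ∀ F : Finset (Fin r), ∏ a ∈ F, bdet c a M =
      (M * (∑ a ∈ F, DD c a) + (1 - ∑ a ∈ F, DD c a)).det := by
    intro F
    induction F using Finset.induction_on with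
    | empty => simp
    | insert a F ha ih =>
      rw [Finset.prod_insert ha, ih, bdet, ← Matrix.det_mul, Finset.sum_insert ha]
      congr 1
      obtain ⟨S, hS⟩ : ∃ S, S = ∑ a ∈ F, DD c a := ⟨_, rfl⟩
      have h1 : DD c a * S = 0 := by
        rw [hS, Matrix.mul_sum]
        refine Finset.sum_eq_zero fun b hb => DD_ne c ?_
        rintro rfl
        exact ha hb
      rw [← hS]
      obtain ⟨D, hD⟩ : ∃ D, D = DD c a := ⟨_, rfl⟩
      have h2 : M * D = D * M := by rw [hD]; exact h a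
      rw [← hD] at h1 ⊢
      have e1 : M * D * (M * S) = 0 := by
        rw [Matrix.mul_assoc, ← Matrix.mul_assoc D, ← h2, Matrix.mul_assoc M D, h1, Matrix.mul_zero,
          Matrix.mul_zero]
      have e2 : M * D * (1 - S) = M * D := by
        rw [Matrix.mul_sub, Matrix.mul_one, Matrix.mul_assoc, h1, Matrix.mul_zero, sub_zero]
      have e3 : (1 - D) * (M * S) = M * S := by
        rw [Matrix.sub_mul, Matrix.one_mul, ← Matrix.mul_assoc, ← h2, Matrix.mul_assoc, h1,
          Matrix.mul_zero, sub_zero]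
      have e4 : (1 - D) * (1 - S) = 1 - (D + S) := by
        rw [Matrix.mul_sub, Matrix.mul_one, Matrix.sub_mul, Matrix.one_mul, h1, sub_zero, sub_sub]
      rw [Matrix.add_mul, Matrix.mul_add, Matrix.mul_add, e1, e2, e3, e4, zero_add, Matrix.mul_add,
        ← add_assoc]
  rw [key, DD_sum, Matrix.mul_one, sub_self, add_zero]

theorem bd_lift {c : Fin r → Fin r} {V : G → SpecialLinearGroup (Fin r) ℂ}
    (h : ∀ p, BD c (V p).1) : ∀ w, BD c (FreeGroup.lift V w).1 := by
  intro w a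
  obtain ⟨H, hH⟩ : ∃ H : Subgroup (SpecialLinearGroup (Fin r) ℂ), ∀ u, u ∈ H ↔
      u.1 * DD c a = DD c a * u.1 :=
    ⟨{ carrier := {u | u.1 * DD c a = DD c a * u.1}
       mul_mem' := fun {x y} hx hy => by
        change (x * y).1 * _ = _ * (x * y).1
        change x.1 * DD c a = DD c a * x.1 at hx
        change y.1 * DD c a = DD c a * y.1 at hy
        rw [sl_mul, Matrix.mul_assoc, hy, ← Matrix.mul_assoc, hx,
          Matrix.mul_assoc]
       one_mem' := by
        change (1 : SpecialLinearGroup (Fin r) ℂ).1 * _ = _ * (1 : SpecialLinearGroup (Fin r) ℂ).1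
        rw [sl_one, Matrix.one_mul, Matrix.mul_one]
       inv_mem' := fun {x} hx => by
        change (x⁻¹).1 * _ = _ * (x⁻¹).1
        change x.1 * DD c a = DD c a * x.1 at hx
        have h1 : (x⁻¹).1 * x.1 = 1 := by
          rw [← sl_mul, inv_mul_cancel, sl_one]
        have h2 : x.1 * (x⁻¹).1 = 1 := by
          rw [← sl_mul, mul_inv_cancel, sl_one]
        calc (x⁻¹).1 * DD c a = (x⁻¹).1 * DD c a * (x.1 * (x⁻¹).1) := by
              rw [h2, Matrix.mul_one]
          _ = (x⁻¹).1 * (DD c a * x.1) * (x⁻¹).1 := by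
              simp only [Matrix.mul_assoc]
          _ = (x⁻¹).1 * (x.1 * DD c a) * (x⁻¹).1 := by rw [hx]
          _ = ((x⁻¹).1 * x.1) * DD c a * (x⁻¹).1 := by simp only [Matrix.mul_assoc]
          _ = DD c a * (x⁻¹).1 := by rw [h1, Matrix.one_mul] }, fun M => Iff.rfl⟩
  have h1 : (⊤ : Subgroup (FreeGroup G)) ≤ H.comap (FreeGroup.lift V) := by
    rw [← FreeGroup.closure_range_of, Subgroup.closure_le]
    rintro _ ⟨k, rfl⟩
    rw [SetLike.mem_coe, Subgroup.mem_comap, hH, FreeGroup.lift_apply_of]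
    exact h k a
  exact (hH _).1 (h1 (Subgroup.mem_top w))

/-- The character of a block. -/
noncomputable def bchar (c : Fin r → Fin r) (a : Fin r) (V : G → SpecialLinearGroup (Fin r) ℂ)
    (h : ∀ p, BD c (V p).1) : FreeGroup G →* ℂˣ :=
  MonoidHom.toHomUnits
    { toFun := fun w => bdet c a (FreeGroup.lift V w).1
      map_one' := by rw [map_one, sl_one, bdet_one]
      map_mul' := fun w w' => by
        rw [map_mul, sl_mul, bdet_mul a (bd_lift h w')] }

theorem bchar_apply {c : Fin r → Fin r} {a : Fin r} {V : G → SpecialLinearGroup (Fin r) ℂ}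
    (h : ∀ p, BD c (V p).1) (w : FreeGroup G) :
    ((bchar c a V h w : ℂˣ) : ℂ) = bdet c a (FreeGroup.lift V w).1 := rfl

theorem prod_bchar {c : Fin r → Fin r} {V : G → SpecialLinearGroup (Fin r) ℂ}
    (h : ∀ p, BD c (V p).1) (w : FreeGroup G) : ∏ a, bchar c a V h w = 1 := by
  apply Units.ext
  rw [Units.coe_prod]
  simp only [bchar_apply]
  rw [prod_bdet (bd_lift h w), (FreeGroup.lift V w).2, Units.val_one]

/-- The size of a block. -/
def bsz (c : Fin r → Fin r) (a : Fin r) : ℕ := (Finset.univ.filter fun i => c i = a).card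

theorem prod_zpow_eq (t : ℂˣ) (f : Fin r → ℤ) : ∏ i, t ^ f i = t ^ ∑ i, f i := by
  have : ∀ F : Finset (Fin r), ∏ i ∈ F, t ^ f i = t ^ ∑ i ∈ F, f i := by
    intro F
    induction F using Finset.induction_on with
    | empty => simp
    | insert a F ha ih => rw [Finset.prod_insert ha, Finset.sum_insert ha, ih, _root_.zpow_add]
  exact this _

/-- A block scalar matrix of determinant one. -/
noncomputable def dgS (c : Fin r → Fin r) (ε : Fin r → ℤ) (hε : ∑ i, ε (c i) = 0) (τ : ℂˣ)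
    (e : ℤ) : SpecialLinearGroup (Fin r) ℂ :=
  ⟨BS c fun a => ((τ ^ (ε a * e) : ℂˣ) : ℂ), by
    rw [BS, Matrix.det_diagonal, ← Units.coe_prod]
    have h1 : ∀ i : Fin r, τ ^ (ε (c i) * e) = (τ ^ e) ^ ε (c i) := fun i => by
      rw [mul_comm, _root_.zpow_mul]
    simp only [h1]
    rw [prod_zpow_eq, hε, _root_.zpow_zero, Units.val_one]⟩

theorem dgS_val (c : Fin r → Fin r) (ε : Fin r → ℤ) (hε : ∑ i, ε (c i) = 0) (τ : ℂˣ) (e : ℤ) :
    (dgS c ε hε τ e).1 = BS c fun a => ((τ ^ (ε a * e) : ℂˣ) : ℂ) := rfl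

/-- The twisted representation. -/
noncomputable def tw (c : Fin r → Fin r) (ε : Fin r → ℤ) (hε : ∑ i, ε (c i) = 0)
    (φ : FreeGroup G →* Multiplicative ℤ) (V : G → SpecialLinearGroup (Fin r) ℂ) (τ : ℂˣ) :
    G → SpecialLinearGroup (Fin r) ℂ :=
  fun p => V p * dgS c ε hε τ (φ (FreeGroup.of p)).toAdd

section tw

variable {c : Fin r → Fin r} {ε : Fin r → ℤ} (hε : ∑ i, ε (c i) = 0)
  (φ : FreeGroup G →* Multiplicative ℤ) {V : G → SpecialLinearGroup (Fin r) ℂ}

theorem dgS_add (τ : ℂˣ) (e e' : ℤ) :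
    dgS c ε hε τ (e + e') = dgS c ε hε τ e * dgS c ε hε τ e' := by
  apply Subtype.ext
  rw [sl_mul, dgS_val, dgS_val, dgS_val, BS, BS, BS, Matrix.diagonal_mul_diagonal]
  congr 1
  funext i
  rw [mul_add, _root_.zpow_add, Units.val_mul]

theorem dgS_zero (τ : ℂˣ) : dgS c ε hε τ 0 = 1 := by
  apply Subtype.ext
  rw [sl_one, dgS_val, BS, ← Matrix.diagonal_one]
  congr 1
  funext i
  rw [mul_zero, _root_.zpow_zero, Units.val_one]

theorem lift_tw (hV : ∀ p, BD c (V p).1) (τ : ℂˣ) (w : FreeGroup G) :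
    FreeGroup.lift (tw c ε hε φ V τ) w = FreeGroup.lift V w * dgS c ε hε τ (φ w).toAdd := by
  obtain ⟨f, hf⟩ : ∃ f : FreeGroup G →* SpecialLinearGroup (Fin r) ℂ,
      ∀ w, f w = FreeGroup.lift V w * dgS c ε hε τ (φ w).toAdd :=
    ⟨{ toFun := fun w => FreeGroup.lift V w * dgS c ε hε τ (φ w).toAdd
       map_one' := by rw [map_one, map_one, toAdd_one, dgS_zero, mul_one]
       map_mul' := fun w w' => by
        rw [map_mul, map_mul, toAdd_mul, dgS_add]
        have h1 : FreeGroup.lift V w' * dgS c ε hε τ (φ w).toAdd =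
            dgS c ε hε τ (φ w).toAdd * FreeGroup.lift V w' := by
          apply Subtype.ext
          rw [sl_mul, sl_mul]
          exact (bd_lift hV w').comm_BS _
        rw [mul_assoc, mul_assoc, ← mul_assoc (FreeGroup.lift V w'), h1, mul_assoc] },
      fun _ => rfl⟩
  rw [← hf]
  refine DFunLike.congr_fun ?_ w
  apply FreeGroup.ext_hom
  intro p
  rw [hf, FreeGroup.lift_apply_of, FreeGroup.lift_apply_of]
  rfl

theorem bd_tw (hV : ∀ p, BD c (V p).1) (τ : ℂˣ) : ∀ p, BD c (tw c ε hε φ V τ p).1 := by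
  intro p
  change BD c ((V p * dgS c ε hε τ (φ (FreeGroup.of p)).toAdd).1)
  rw [sl_mul]
  exact (hV p).mul (BD_BS c _)

theorem bchar_tw (hV : ∀ p, BD c (V p).1) (τ : ℂˣ) (a : Fin r) (w : FreeGroup G) :
    bchar c a (tw c ε hε φ V τ) (bd_tw hε φ hV τ) w =
      bchar c a V hV w * τ ^ (ε a * (φ w).toAdd * bsz c a) := by
  apply Units.ext
  rw [bchar_apply, lift_tw hε φ hV, Units.val_mul, bchar_apply, sl_mul, dgS_val,
    bdet_mul a (BD_BS c _), bdet_BS, _root_.zpow_mul (a := τ) (m := ε a * (φ w).toAdd),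
    zpow_natCast, Units.val_pow_eq_pow_val]
  rfl

end tw

/-- The block structure of a representation. -/
structure Blk (c : Fin r → Fin r) (z : Fin s → G) (V : G → SpecialLinearGroup (Fin r) ℂ) :
    Prop where
  bd : ∀ p, BD c (V p).1
  dg : ∀ t, ∃ ζ : Fin r → ℂ, (V (z t)).1 = BS c ζ
  sp : sSup {W | Irr V W ∧ ∃ a, ∀ v ∈ W, DD c a *ᵥ v = v} = ⊤

theorem BS_mulVec {c : Fin r → Fin r} {a : Fin r} {v : Fin r → ℂ} (hv : DD c a *ᵥ v = v)
    (ψ : Fin r → ℂ) : BS c ψ *ᵥ v = ψ a • v := by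
  rw [BS_eq_sum, Matrix.sum_mulVec]
  rw [Finset.sum_eq_single a]
  · rw [Matrix.smul_mulVec, hv]
  · intro b _ hb
    rw [Matrix.smul_mulVec, ← hv, Matrix.mulVec_mulVec, DD_ne c hb, Matrix.zero_mulVec, smul_zero]
  · intro h
    exact absurd (Finset.mem_univ _) h

theorem Blk.tw {c : Fin r → Fin r} {z : Fin s → G} {V : G → SpecialLinearGroup (Fin r) ℂ}
    (h : Blk c z V) {ε : Fin r → ℤ} (hε : ∑ i, ε (c i) = 0)
    (φ : FreeGroup G →* Multiplicative ℤ) (τ : ℂˣ) : Blk c z (tw c ε hε φ V τ) := by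
  have hinv : ∀ a, ∀ W : Submodule ℂ (Fin r → ℂ), (∀ v ∈ W, DD c a *ᵥ v = v) →
      (IsInv (H326.tw c ε hε φ V τ) W ↔ IsInv V W) := by
    intro a W hW
    have h1 : ∀ p, ∀ v ∈ W, (H326.tw c ε hε φ V τ p).1 *ᵥ v =
        ((τ ^ (ε a * (φ (FreeGroup.of p)).toAdd) : ℂˣ) : ℂ) • (V p).1 *ᵥ v := by
      intro p v hv
      change (V p * dgS c ε hε τ (φ (FreeGroup.of p)).toAdd).1 *ᵥ v = _
      rw [sl_mul, ← Matrix.mulVec_mulVec, dgS_val, BS_mulVec (hW v hv), Matrix.mulVec_smul]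
    constructor
    · intro h2 p v hv
      have h3 := h2 p v hv
      rw [h1 p v hv] at h3
      have h4 := W.smul_mem (((τ ^ (ε a * (φ (FreeGroup.of p)).toAdd))⁻¹ : ℂˣ) : ℂ) h3
      rwa [smul_smul, ← Units.val_mul, inv_mul_cancel, Units.val_one, one_smul] at h4
    · intro h2 p v hv
      rw [h1 p v hv]
      exact W.smul_mem _ (h2 p v hv)
  refine ⟨bd_tw hε φ h.bd τ, fun t => ?_, ?_⟩
  · obtain ⟨ζ, hζ⟩ := h.dg t
    refine ⟨fun a => ζ a * ((τ ^ (ε a * (φ (FreeGroup.of (z t))).toAdd) : ℂˣ) : ℂ), ?_⟩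
    change (V (z t) * dgS c ε hε τ (φ (FreeGroup.of (z t))).toAdd).1 = _
    rw [sl_mul, hζ, dgS_val, BS, BS, BS, Matrix.diagonal_mul_diagonal]
  · rw [eq_top_iff, ← h.sp]
    refine sSup_le_sSup ?_
    rintro W ⟨⟨h1, h2, h3⟩, a, ha⟩
    refine ⟨⟨h1, (hinv a W ha).2 h2, fun W' hW' hi => h3 W' hW' ?_⟩, a, ha⟩
    exact (hinv a W' fun v hv => ha v (hW' hv)).1 hi

end Vale.Agent.P002.H326
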