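import Vale.Agent.P002.H326.D

/-!
# Twisting the blocks: the induction
-/

namespace Vale.Agent.P002.H326

open Matrix Vale.Agent.P002R.Orb LaurentPolynomial

variable {G : Type} {r s : ℕ}

theorem tw_entry {c : Fin r → Fin r} {ε : Fin r → ℤ} (hε : ∑ i, ε (c i) = 0)
    (φ : FreeGroup G →* Multiplicative ℤ) (V : G → SpecialLinearGroup (Fin r) ℂ) (τ : ℂˣ)
    (p : G) (i j : Fin r) : (tw c ε hε φ V τ p).1 i j =
      (V p).1 i j * ((τ ^ (ε (c j) * (φ (FreeGroup.of p)).toAdd) : ℂˣ) : ℂ) := by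
  have h1 : (tw c ε hε φ V τ p).1 = (V p).1 * BS c
      fun a => ((τ ^ (ε a * (φ (FreeGroup.of p)).toAdd) : ℂˣ) : ℂ) := rfl
  rw [h1, BS, Matrix.mul_diagonal]

theorem laurent_zero {c : Fin r → Fin r} {ε : Fin r → ℤ} (hε : ∑ i, ε (c i) = 0)
    (φ : FreeGroup G →* Multiplicative ℤ) (V : G → SpecialLinearGroup (Fin r) ℂ)
    (f : MvPolynomial (G × Fin r × Fin r) ℂ)
    (h : {τ : ℂˣ | value f (tw c ε hε φ V τ) = 0}.Infinite) (τ : ℂˣ) :
    value f (tw c ε hε φ V τ) = 0 := by
  obtain ⟨F, hF⟩ : ∃ F : ℂ[T;T⁻¹], ∀ τ : ℂˣ, LaurentPolynomial.eval₂ (RingHom.id ℂ) τ F =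
      value f (tw c ε hε φ V τ) := by
    refine ⟨MvPolynomial.eval₂ (LaurentPolynomial.C) (fun q : G × Fin r × Fin r =>
      LaurentPolynomial.C ((V q.1).1 q.2.1 q.2.2) *
        LaurentPolynomial.T (ε (c q.2.2) * (φ (FreeGroup.of q.1)).toAdd)) f, fun τ => ?_⟩
    rw [MvPolynomial.hom_eval₂, value]
    congr 1
    · ext x
      simp
    · funext q
      rw [tw_entry]
      simp [LaurentPolynomial.eval₂_C_mul_T]
  rw [← hF]
  obtain ⟨n, f', hf'⟩ := F.exists_T_pow
  have h1 : ∀ τ : ℂˣ, f'.eval (τ : ℂ) = LaurentPolynomial.eval₂ (RingHom.id ℂ) τ F * (τ : ℂ) ^ n := by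
    intro τ
    have h2 := congrArg (LaurentPolynomial.eval₂ (RingHom.id ℂ) τ) hf'
    rw [LaurentPolynomial.eval₂_toLaurent, map_mul, LaurentPolynomial.eval₂_T_n] at h2
    exact h2
  have h2 : f' = 0 := by
    apply Polynomial.eq_zero_of_infinite_isRoot
    refine Set.Infinite.mono ?_ (h.image Units.val_injective.injOn)
    rintro _ ⟨τ, hτ, rfl⟩
    change f'.eval (τ : ℂ) = 0
    rw [h1, hF]
    change value f (tw c ε hε φ V τ) = 0 at hτ
    rw [hτ, zero_mul]
  have h3 := h1 τ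
  rw [h2, Polynomial.eval_zero, eq_comm, mul_eq_zero] at h3
  exact h3.resolve_right (pow_ne_zero _ τ.ne_zero)

theorem tw_one {c : Fin r → Fin r} {ε : Fin r → ℤ} (hε : ∑ i, ε (c i) = 0)
    (φ : FreeGroup G →* Multiplicative ℤ) (V : G → SpecialLinearGroup (Fin r) ℂ) :
    tw c ε hε φ V 1 = V := by
  funext p
  apply Subtype.ext
  ext i j
  have := tw_entry hε φ V 1 p i j
  rw [_root_.one_zpow, Units.val_one, mul_one] at this
  exact this

theorem bchar_of_bsz {c : Fin r → Fin r} {a : Fin r} {V : G → SpecialLinearGroup (Fin r) ℂ}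
    (h : ∀ p, BD c (V p).1) (h0 : bsz c a = 0) (w : FreeGroup G) : bchar c a V h w = 1 := by
  apply Units.ext
  rw [bchar_apply, Units.val_one, bdet]
  have h1 : DD c a = 0 := by
    rw [DD, ← Matrix.diagonal_zero]
    congr 1
    funext i
    rw [bsz, Finset.card_eq_zero, Finset.filter_eq_empty_iff] at h0
    rw [if_neg (h0 (Finset.mem_univ i))]
  rw [h1, Matrix.mul_zero, zero_add, sub_zero, Matrix.det_one]

theorem sum_eps (c : Fin r → Fin r) (a b : Fin r) :
    ∑ i, ((if c i = a then (bsz c b : ℤ) else 0) + if c i = b then -(bsz c a : ℤ) else 0) = 0 := by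
  rw [Finset.sum_add_distrib]
  simp only [Finset.sum_ite, Finset.sum_const, nsmul_eq_mul, mul_zero, add_zero]
  change (bsz c a : ℤ) * bsz c b + (bsz c b : ℤ) * -bsz c a = 0
  ring

theorem twist_main (z : Fin s → G) (c : Fin r → Fin r) {J : Type} [Fintype J] [DecidableEq J]
    (φ : J → FreeGroup G →* Multiplicative ℤ) (h : J → FreeGroup G)
    (hφh : ∀ l l', φ l (h l') = if l = l' then Multiplicative.ofAdd 1 else 1)
    (𝒢 : Subgroup ℂˣ) (u : ℂˣ) (hu : u ∈ 𝒢) (huinf : ∀ n : ℕ, 0 < n → u ^ n ≠ 1)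
    (T : Set (G → SpecialLinearGroup (Fin r) ℂ))
    (hT : ∀ V ∈ T, Blk c z V → ∀ (ε : Fin r → ℤ) (hε : ∑ i, ε (c i) = 0) (l : J) (τ : ℂˣ),
      tw c ε hε (φ l) V τ ∈ T)
    (f : MvPolynomial (G × Fin r × Fin r) ℂ)
    (H : ∀ V ∈ T, ∀ hB : Blk c z V, (∀ a l, bchar c a V hB.bd (h l) ∈ 𝒢) → value f V = 0) :
    ∀ V ∈ T, Blk c z V → value f V = 0 := by
  classical
  obtain ⟨Bad, hBad⟩ : ∃ Bad : ∀ V, Blk c z V → Finset (Fin r × J), ∀ V hB, Bad V hB =
      Finset.univ.filter fun q => bchar c q.1 V hB.bd (h q.2) ∉ 𝒢 := ⟨_, fun _ _ => rfl⟩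
  have hmem : ∀ V hB q, q ∈ Bad V hB ↔ bchar c q.1 V hB.bd (h q.2) ∉ 𝒢 := by
    intro V hB q
    rw [hBad]
    simp
  suffices hmain : ∀ (d : ℕ) (V) (hV : V ∈ T) (hB : Blk c z V), (Bad V hB).card ≤ d →
      value f V = 0 from fun V hV hB => hmain _ V hV hB le_rfl
  intro d
  induction d with
  | zero =>
    intro V hV hB hc
    refine H V hV hB fun a l => ?_
    by_contra h0
    have h1 : (a, l) ∈ Bad V hB := (hmem V hB (a, l)).2 h0
    rw [Finset.card_eq_zero.1 (Nat.le_zero.1 hc)] at h1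
    exact absurd h1 (Finset.notMem_empty _)
  | succ d ih =>
    intro V hV hB hc
    by_cases hall : ∀ a l, bchar c a V hB.bd (h l) ∈ 𝒢
    · exact H V hV hB hall
    push Not at hall
    obtain ⟨a, l, hal⟩ := hall
    have hb : ∃ b, b ≠ a ∧ bchar c b V hB.bd (h l) ∉ 𝒢 := by
      by_contra h0
      push Not at h0
      have h1 := prod_bchar hB.bd (h l)
      rw [← Finset.mul_prod_erase _ _ (Finset.mem_univ a), mul_eq_one_iff_eq_inv] at h1
      rw [h1] at hal
      exact hal (inv_mem (Subgroup.prod_mem _ fun b hb => h0 b (Finset.ne_of_mem_erase hb)))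
    obtain ⟨b, hba, hbl⟩ := hb
    have hda : bsz c a ≠ 0 := by
      intro h0
      rw [bchar_of_bsz hB.bd h0] at hal
      exact hal (one_mem _)
    have hdb : bsz c b ≠ 0 := by
      intro h0
      rw [bchar_of_bsz hB.bd h0] at hbl
      exact hbl (one_mem _)
    obtain ⟨ε, hεd⟩ : ∃ ε : Fin r → ℤ, ∀ x, ε x = (if x = a then (bsz c b : ℤ) else 0) +
        if x = b then -(bsz c a : ℤ) else 0 := ⟨_, fun _ => rfl⟩
    have hε : ∑ i, ε (c i) = 0 := by
      simp only [hεd]
      exact sum_eps c a b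
    have hεa : ε a = bsz c b := by
      rw [hεd, if_pos rfl, if_neg hba.symm, add_zero]
    have hεo : ∀ x, x ≠ a → x ≠ b → ε x = 0 := by
      intro x h1 h2
      rw [hεd, if_neg h1, if_neg h2, add_zero]
    obtain ⟨x, hx⟩ := IsAlgClosed.exists_pow_nat_eq
      (((bchar c a V hB.bd (h l))⁻¹ : ℂˣ) : ℂ) (Nat.pos_of_ne_zero (Nat.mul_ne_zero hdb hda))
    have hx0 : x ≠ 0 := by
      rintro rfl
      rw [zero_pow (Nat.mul_ne_zero hdb hda)] at hx
      exact (Units.ne_zero _) hx.symm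
    obtain ⟨τ, hτ⟩ : ∃ τ : ℂˣ, τ ^ (bsz c b * bsz c a) = (bchar c a V hB.bd (h l))⁻¹ :=
      ⟨Units.mk0 x hx0, Units.ext (by rw [Units.val_pow_eq_pow_val, Units.val_mk0, hx])⟩
    have key : ∀ n : ℕ, value f (tw c ε hε (φ l) V (τ * u ^ n)) = 0 := by
      intro n
      have hB' := hB.tw hε (φ l) (τ * u ^ n)
      refine ih _ (hT V hV hB ε hε l _) hB' ?_
      have h1 : bchar c a (tw c ε hε (φ l) V (τ * u ^ n)) hB'.bd (h l) ∈ 𝒢 := by
        rw [bchar_tw hε (φ l) hB.bd, hφh, if_pos rfl, toAdd_ofAdd, mul_one, hεa]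
        rw [← Nat.cast_mul, zpow_natCast, mul_pow, hτ, mul_inv_cancel_left]
        exact pow_mem (pow_mem hu _) _
      have h2 : Bad _ hB' ⊆ (Bad V hB).erase (a, l) := by
        intro q hq
        rw [hmem] at hq
        rw [Finset.mem_erase, hmem]
        constructor
        · rintro rfl
          exact hq h1
        · intro h3
          refine hq ?_
          rw [bchar_tw hε (φ l) hB.bd, hφh]
          by_cases h4 : l = q.2
          · have h5 : q.1 ≠ a := by
              intro h5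
              rw [h5, ← h4] at h3
              exact hal h3
            have h6 : q.1 ≠ b := by
              intro h6
              rw [h6, ← h4] at h3
              exact hbl h3
            rw [hεo _ h5 h6, zero_mul, zero_mul, zpow_zero, mul_one]
            exact h3
          · rw [if_neg h4, toAdd_one, mul_zero, zero_mul, zpow_zero, mul_one]
            exact h3
      have h3 := Finset.card_le_card h2
      rw [Finset.card_erase_of_mem ((hmem V hB (a, l)).2 hal)] at h3
      omega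
    have hinf : {τ : ℂˣ | value f (tw c ε hε (φ l) V τ) = 0}.Infinite := by
      refine Set.infinite_of_injective_forall_mem (f := fun n : ℕ => τ * u ^ n) ?_ key
      intro n n' hn
      have h1 : u ^ n = u ^ n' := mul_left_cancel hn
      by_contra hne
      rcases Nat.lt_or_gt_of_ne hne with h2 | h2
      · refine huinf (n' - n) (by omega) ?_
        have h3 : u ^ (n' - n) * u ^ n = u ^ n := by
          rw [← pow_add, Nat.sub_add_cancel h2.le, h1]
        exact mul_eq_right.1 h3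
      · refine huinf (n - n') (by omega) ?_
        have h3 : u ^ (n - n') * u ^ n' = u ^ n' := by
          rw [← pow_add, Nat.sub_add_cancel h2.le, h1]
        exact mul_eq_right.1 h3
    have h1 := laurent_zero hε (φ l) V f hinf 1
    rwa [tw_one] at h1

end Vale.Agent.P002.H326
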