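import Vale.Agent.P002.H326.B2
import Vale.Agent.P002.H326.F

/-!
# Eigenvalues; one piece
-/

namespace Vale.Agent.P002.H326

open Matrix NumberField Vale.Agent.P002R Vale.Agent.P002R.Orb

theorem root_iff {r : ℕ} (M : Matrix (Fin r) (Fin r) ℂ) (z : ℂ) :
    M.charpoly.IsRoot z ↔ ∃ v : Fin r → ℂ, v ≠ 0 ∧ M *ᵥ v = z • v := by
  change M.charpoly.eval z = 0 ↔ _
  rw [Matrix.eval_charpoly, ← Matrix.exists_mulVec_eq_zero_iff]
  refine exists_congr fun v => and_congr_right fun _ => ?_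
  rw [Matrix.sub_mulVec, sub_eq_zero, eq_comm]
  have : (Matrix.scalar (Fin r) z) *ᵥ v = z • v := by
    rw [Matrix.scalar_apply]
    ext i
    simp [Matrix.mulVec_diagonal]
  rw [this]

theorem root_diag {r : ℕ} (η : Fin r → ℂ) (z : ℂ) (h : (diagonal η).charpoly.IsRoot z) :
    ∃ i, η i = z := by
  obtain ⟨v, hv, hv'⟩ := (root_iff _ z).1 h
  obtain ⟨i, hi⟩ := Function.ne_iff.1 hv
  refine ⟨i, ?_⟩
  have := congrFun hv' i
  rw [Matrix.mulVec_diagonal, Pi.smul_apply, smul_eq_mul] at this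
  exact mul_right_cancel₀ hi this

theorem diag_root {r : ℕ} (η : Fin r → ℂ) (i : Fin r) : (diagonal η).charpoly.IsRoot (η i) := by
  rw [root_iff]
  refine ⟨Pi.single i 1, ?_, ?_⟩
  · intro h
    have := congrFun h i
    simp at this
  · ext j
    rw [Matrix.mulVec_diagonal, Pi.smul_apply, smul_eq_mul]
    by_cases h : j = i
    · rw [h]
    · rw [Pi.single_eq_of_ne h, mul_zero, mul_zero]

theorem root_pow {r : ℕ} (M : SpecialLinearGroup (Fin r) ℂ) (z : ℂ) (m : ℕ)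
    (h : M.1.charpoly.IsRoot z) : (M ^ m).1.charpoly.IsRoot (z ^ m) := by
  obtain ⟨v, hv, hv'⟩ := (root_iff _ z).1 h
  rw [root_iff]
  refine ⟨v, hv, ?_⟩
  induction m with
  | zero =>
    rw [pow_zero, pow_zero, one_smul, sl_one, Matrix.one_mulVec]
  | succ m ih =>
    rw [pow_succ, sl_mul, ← Matrix.mulVec_mulVec, hv', Matrix.mulVec_smul, ih, smul_smul, pow_succ,
      mul_comm]

theorem eigIn_conj {r : ℕ} {E : Subgroup ℂˣ} {M N : SpecialLinearGroup (Fin r) ℂ}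
    (h : IsConj M N) (hM : EigIn E M.1) : EigIn E N.1 :=
  fun z hz => hM z (eigenvalue_conj h hz)

theorem eigIn_zero {E : Subgroup ℂˣ} (M : SpecialLinearGroup (Fin 0) ℂ) : EigIn E M.1 := by
  intro z hz
  obtain ⟨v, hv, -⟩ := (root_iff _ z).1 hz
  exact absurd (Subsingleton.elim _ _) hv

theorem conj_ZP {s : ℕ} {H : Type*} [Group H] (z : Fin s → H) (U : H) (e : Fin s → ℤ) :
    ZP (fun t => U * z t * U⁻¹) e = U * ZP z e * U⁻¹ := by
  have h1 := map_list_prod (MulAut.conj U) (List.ofFn fun t => z t ^ e t)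
  rw [MulAut.conj_apply, List.map_ofFn] at h1
  unfold ZP
  rw [h1]
  congr 2
  funext t
  simp only [Function.comp, MulAut.conj_apply, conj_zpow]

/-- The diagonal matrices with entries in `E`. -/
def diagH (r : ℕ) (E : Subgroup ℂˣ) : Subgroup (SpecialLinearGroup (Fin r) ℂ) where
  carrier := {u | ∃ η : Fin r → ℂˣ, (∀ i, η i ∈ E) ∧ u.1 = diagonal fun i => ((η i : ℂˣ) : ℂ)}
  mul_mem' := by
    rintro x y ⟨η, h1, h2⟩ ⟨θ, h3, h4⟩
    refine ⟨fun i => η i * θ i, fun i => mul_mem (h1 i) (h3 i), ?_⟩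
    rw [sl_mul, h2, h4, Matrix.diagonal_mul_diagonal]
    rfl
  one_mem' := ⟨fun _ => 1, fun _ => one_mem _, by
    rw [sl_one]
    simp⟩
  inv_mem' := by
    rintro x ⟨η, h1, h2⟩
    refine ⟨fun i => (η i)⁻¹, fun i => inv_mem (h1 i), ?_⟩
    have h3 : (x⁻¹).1 * x.1 = 1 := by
      rw [← sl_mul, inv_mul_cancel, sl_one]
    have h4 : x.1 * (diagonal fun i => (((η i)⁻¹ : ℂˣ) : ℂ)) = 1 := by
      rw [h2, Matrix.diagonal_mul_diagonal, ← Matrix.diagonal_one]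
      congr 1
      funext i
      exact (η i).mul_inv
    calc (x⁻¹).1 = (x⁻¹).1 * (x.1 * (diagonal fun i => (((η i)⁻¹ : ℂˣ) : ℂ))) := by
          rw [h4, Matrix.mul_one]
      _ = _ := by rw [← Matrix.mul_assoc, h3, Matrix.one_mul]

variable {k s r : ℕ} {g n : Fin k → ℕ}

theorem eigIn_ZP {X : GensC g n s → SpecialLinearGroup (Fin r) ℂ}
    (hz : ∀ t p, Commute (X (Sum.inr t)) (X p)) (hss : IsSS X) (E : Subgroup ℂˣ)
    (hE : ∀ t, EigIn E ((X (Sum.inr t)).1)) (e : Fin s → ℤ) :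
    EigIn E ((ZP (fun t => X (Sum.inr t)) e).1) := by
  rcases Nat.eq_zero_or_pos r with hr | hr
  · subst hr
    exact eigIn_zero _
  obtain ⟨U, ζ, hU⟩ := exists_diag hr (fun t : Fin s => Sum.inr t) hz hss
  have h1 : ∀ t, (U⁻¹ * X (Sum.inr t) * U⁻¹⁻¹).1 = diagonal (ζ t) := by
    intro t
    rw [inv_inv, sl_mul, sl_mul, Matrix.mul_assoc, hU, ← Matrix.mul_assoc, ← sl_mul,
      inv_mul_cancel, sl_one, Matrix.one_mul]
  have h2 : ∀ t, U⁻¹ * X (Sum.inr t) * U⁻¹⁻¹ ∈ diagH r E := by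
    intro t
    have h3 : ∀ i, ∃ e ∈ E, (e : ℂ) = ζ t i := by
      intro i
      refine eigIn_conj (isConj_iff.2 ⟨U⁻¹, rfl⟩) (hE t) (ζ t i) ?_
      rw [h1]
      exact diag_root _ i
    choose η h4 h5 using h3
    refine ⟨η, h4, ?_⟩
    rw [h1]
    congr 1
    funext i
    exact (h5 i).symm
  have h3 : ZP (fun t => U⁻¹ * X (Sum.inr t) * U⁻¹⁻¹) e ∈ diagH r E := by
    refine Subgroup.list_prod_mem _ fun x hx => ?_
    obtain ⟨t, rfl⟩ := List.mem_ofFn.1 hx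
    exact zpow_mem (h2 t) _
  rw [conj_ZP] at h3
  obtain ⟨η, h4, h5⟩ := h3
  refine eigIn_conj (isConj_iff.2 ⟨U⁻¹, rfl⟩).symm fun z hz' => ?_
  · rw [h5] at hz'
    obtain ⟨i, hi⟩ := root_diag _ z hz'
    exact ⟨η i, h4 i, hi⟩

/-- The determinant of a block is a product of eigenvalues. -/
theorem bdet_mem {c : Fin r → Fin r} {M : Matrix (Fin r) (Fin r) ℂ} (hM : BD c M) (a : Fin r)
    {E : Subgroup ℂˣ} (hE : EigIn E M) : ∃ e ∈ E, (e : ℂ) = bdet c a M := by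
  rw [bdet, Matrix.det_eq_prod_roots_charpoly]
  refine Multiset.prod_induction (fun x => ∃ e ∈ E, (e : ℂ) = x) _ ?_ ⟨1, one_mem _, rfl⟩ ?_
  · rintro x y ⟨e, he, rfl⟩ ⟨e', he', rfl⟩
    exact ⟨e * e', mul_mem he he', rfl⟩
  · intro w hw
    have hw' := (Polynomial.mem_roots'.1 hw).2
    obtain ⟨v, hv, hv'⟩ := (root_iff _ w).1 hw'
    have h1 : M *ᵥ (DD c a *ᵥ v) = w • (DD c a *ᵥ v) := by
      have h2 := congrArg (fun x => DD c a *ᵥ x) hv'
      rw [Matrix.mulVec_smul, Matrix.mulVec_mulVec, Matrix.mul_add, ← Matrix.mul_assoc, ← hM a,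
        Matrix.mul_assoc, DD_sq, Matrix.mul_sub, Matrix.mul_one, DD_sq, sub_self, add_zero] at h2
      rw [Matrix.mulVec_mulVec]
      exact h2
    by_cases h0 : DD c a *ᵥ v = 0
    · refine ⟨1, one_mem _, ?_⟩
      rw [Matrix.add_mulVec, ← Matrix.mulVec_mulVec, h0, Matrix.mulVec_zero, zero_add,
        Matrix.sub_mulVec, Matrix.one_mulVec, h0, sub_zero] at hv'
      obtain ⟨i, hi⟩ := Function.ne_iff.1 hv
      have := congrFun hv' i
      rw [Pi.smul_apply, smul_eq_mul] at this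
      rw [Units.val_one]
      exact mul_right_cancel₀ hi ((one_mul _).trans this)
    · exact hE w ((root_iff _ w).2 ⟨_, h0, h1⟩)

variable (m : ∀ i, Fin (n i) → ℕ) (b : Fin k → Fin s → ℤ)
    (β : ∀ i, Fin (n i) → Fin s → ℤ) (Q : Set (Fin s → ℤ)) (S : ∀ i, Set (Fin (n i)))
    (C : ∀ i, Fin (n i) → SpecialLinearGroup (Fin r) ℂ) (S' : Set (Fin s))
    (D : Fin s → SpecialLinearGroup (Fin r) ℂ)

theorem piece (h01 : Vale.Agent.P002L.G01Irr) (hA : Vale.Agent.P002B.G0All)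
    (X : GensC g n s → SpecialLinearGroup (Fin r) ℂ) (hX : X ∈ YC m b β Q S C S' D)
    (Ez E : Subgroup ℂˣ) (hEz : ∀ t, EigIn Ez ((X (Sum.inr t)).1)) (hEE : Ez ≤ E)
    (hm : ∀ i j, m i j ≠ 0 → ∀ w : ℂˣ, w ^ m i j ∈ Ez → w ∈ E)
    (hC : ∀ i, ∀ j ∈ S i, EigIn E ((C i j).1))
    (L : IntermediateField ℚ ℂ) (hL : FiniteDimensional ℚ L)
    (hc : CoefOK (phiO (algebraMap L ℂ)) E (r * r))
    (hT : TorOK (phiO (algebraMap L ℂ)) E r) :
    ∃ T' ⊆ YC m b β Q S C S' D, X ∈ T' ∧ IsDenseRep L T' := by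
  obtain ⟨⟨hrep, hss⟩, hXC, hXD⟩ := hX
  obtain ⟨h2, h3, h4, h5, h6⟩ := (isRepC_iff g m b β Q X).1 hrep
  obtain ⟨P, hP⟩ : ∃ P : ∀ i, Fin (n i) → Prop, ∀ i j, P i j ↔ (j ∈ S i ∨ m i j ≠ 0) :=
    ⟨_, fun _ _ => Iff.rfl⟩
  have ho : ∀ i, ∃ o : Option (Fin (n i)), (∀ j, o = some j → ¬ P i j) ∧
      (o = none → ∀ j, P i j) := by
    intro i
    by_cases h : ∃ j, ¬ P i j
    · obtain ⟨j, hj⟩ := h
      refine ⟨some j, fun j' hj' => ?_, fun h => ?_⟩
      · rw [← Option.some.inj hj']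
        exact hj
      · cases h
    · push Not at h
      exact ⟨none, fun j hj => (by cases hj), fun _ => h⟩
  choose o ho hn using ho
  have hmono : ∀ M : Matrix (Fin r) (Fin r) ℂ, EigIn Ez M → EigIn E M := by
    intro M hM z hz
    obtain ⟨e, he, h⟩ := hM z hz
    exact ⟨e, hEE he, h⟩
  refine ⟨PZ g P m b β Q X, ?_, ?_, ?_⟩
  · rintro Y ⟨y1, y2, y3, y4, y5⟩
    refine ⟨⟨y1, y2⟩, fun i j hj => (hXC i j hj).trans (y3 i j ((hP i j).2 (Or.inl hj))),
      fun t ht => (hXD t ht).trans (y4 t)⟩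
  · exact ⟨hrep, hss, fun i j _ => IsConj.refl _, fun t => IsConj.refl _, fun i => IsConj.refl _⟩
  · refine pz_dense (o := o) h01 hA ho hn (fun i j h => (hP i j).2 (Or.inr h)) X E ?_
      (fun t => hmono _ (hEz t)) ?_ L hL hc hT
    · intro i j hj
      by_cases hmij : m i j = 0
      · have hjS : j ∈ S i := ((hP i j).1 hj).resolve_right fun h => h hmij
        exact eigIn_conj (hXC i j hjS) (hC i j hjS)
      · intro z hz
        have h7 := root_pow _ z (m i j) hz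
        rw [h5 i j] at h7
        obtain ⟨e, he, he'⟩ := eigIn_ZP h4 hss Ez hEz (β i j) _ h7
        have hz0 : z ≠ 0 := by
          rintro rfl
          rw [zero_pow hmij] at he'
          exact e.ne_zero he'
        refine ⟨Units.mk0 z hz0, hm i j hmij _ ?_, rfl⟩
        have : (Units.mk0 z hz0) ^ m i j = e := by
          apply Units.ext
          rw [Units.val_pow_eq_pow_val, Units.val_mk0, he']
        rw [this]
        exact he
    · intro i
      rw [← ZP_neg _ fun t t' => h4 t _]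
      exact hmono _ (eigIn_ZP h4 hss Ez hEz _)

end Vale.Agent.P002.H326
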