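import Vale.Agent.P002.H326.M

/-!
# Central extensions: the theorem
-/

namespace Vale.Agent.P002.H326

open Matrix NumberField Vale.Agent.P002R Vale.Agent.P002R.Orb

/-- A unit of infinite order. -/
theorem exists_unit : ∃ u : ℂˣ, IsIntegral ℤ (u : ℂ) ∧ IsIntegral ℤ ((u⁻¹ : ℂˣ) : ℂ) ∧
    ∀ n : ℕ, 0 < n → u ^ n ≠ 1 := by
  have h2 : Real.sqrt 2 * Real.sqrt 2 = 2 := Real.mul_self_sqrt (by norm_num)
  have h1 : ((Real.sqrt 2 : ℝ) : ℂ) * ((Real.sqrt 2 : ℝ) : ℂ) = 2 := by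
    rw [← Complex.ofReal_mul, h2, Complex.ofReal_ofNat]
  obtain ⟨u, hu, hui⟩ : ∃ u : ℂˣ, (u : ℂ) = 1 + ((Real.sqrt 2 : ℝ) : ℂ) ∧
      ((u⁻¹ : ℂˣ) : ℂ) = ((Real.sqrt 2 : ℝ) : ℂ) - 1 :=
    ⟨⟨1 + ((Real.sqrt 2 : ℝ) : ℂ), ((Real.sqrt 2 : ℝ) : ℂ) - 1, by linear_combination h1,
      by linear_combination h1⟩, rfl, rfl⟩
  have hs : IsIntegral ℤ ((Real.sqrt 2 : ℝ) : ℂ) := by
    refine IsIntegral.of_pow (n := 2) (by norm_num) ?_
    rw [pow_two, h1]
    exact_mod_cast (isIntegral_algebraMap (R := ℤ) (A := ℂ) (x := 2))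
  refine ⟨u, ?_, ?_, fun n hn h => ?_⟩
  · rw [hu]
    exact isIntegral_one.add hs
  · rw [hui]
    exact hs.sub isIntegral_one
  · have h3 : ((1 + Real.sqrt 2 : ℝ) : ℂ) ^ n = 1 := by
      rw [Complex.ofReal_add, Complex.ofReal_one, ← hu, ← Units.val_pow_eq_pow_val, h,
        Units.val_one]
    have h4 : (1 + Real.sqrt 2 : ℝ) ^ n = 1 := by
      rw [← Complex.ofReal_pow] at h3
      exact_mod_cast h3
    have h5 : (1 : ℝ) < 1 + Real.sqrt 2 := by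
      have : 0 < Real.sqrt 2 := Real.sqrt_pos.2 (by norm_num)
      linarith
    exact absurd h4 (one_lt_pow₀ h5 hn.ne').ne'

theorem exists_conj_poly {G : Type} {r : ℕ} (U : SpecialLinearGroup (Fin r) ℂ)
    (f : MvPolynomial (G × Fin r × Fin r) ℂ) :
    ∃ f' : MvPolynomial (G × Fin r × Fin r) ℂ, ∀ Y : G → SpecialLinearGroup (Fin r) ℂ,
      value f' Y = value f fun p => U * Y p * U⁻¹ := by
  refine ⟨MvPolynomial.aeval (fun q : G × Fin r × Fin r => ∑ j, (∑ i, MvPolynomial.C (U.1 q.2.1 i) *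
    MvPolynomial.X (q.1, i, j)) * MvPolynomial.C ((U⁻¹).1 j q.2.2)) f, fun Y => ?_⟩
  have h : ∀ (F : MvPolynomial (G × Fin r × Fin r) ℂ) (Z : G → SpecialLinearGroup (Fin r) ℂ),
      value F Z = MvPolynomial.aeval (fun p => (Z p.1).1 p.2.1 p.2.2) F := fun F Z => rfl
  rw [h, h]
  have h2 : (MvPolynomial.aeval (R := ℂ) (fun p : G × Fin r × Fin r =>
      (Y p.1).1 p.2.1 p.2.2)).comp (MvPolynomial.aeval (R := ℂ) (fun q : G × Fin r × Fin r =>
        ∑ j, (∑ i, MvPolynomial.C (U.1 q.2.1 i) * MvPolynomial.X (q.1, i, j)) *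
          MvPolynomial.C ((U⁻¹).1 j q.2.2))) = MvPolynomial.aeval (fun p : G × Fin r × Fin r =>
            (U * Y p.1 * U⁻¹).1 p.2.1 p.2.2) := by
    apply MvPolynomial.algHom_ext
    intro q
    rw [AlgHom.comp_apply, MvPolynomial.aeval_X, MvPolynomial.aeval_X, map_sum, sl_mul, sl_mul,
      Matrix.mul_apply]
    refine Finset.sum_congr rfl fun j _ => ?_
    rw [map_mul, map_sum, Matrix.mul_apply]
    simp only [map_mul, MvPolynomial.aeval_X, MvPolynomial.aeval_C, Algebra.algebraMap_self,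
      RingHom.id_apply]
  exact DFunLike.congr_fun h2 f

theorem lift_conj {G H : Type*} [Group H] (U : H) (X : G → H) (w : FreeGroup G) :
    FreeGroup.lift (fun p => U * X p * U⁻¹) w = U * FreeGroup.lift X w * U⁻¹ := by
  have h : FreeGroup.lift (fun p => U * X p * U⁻¹) =
      ((MulAut.conj U).toMonoidHom).comp (FreeGroup.lift X) := by
    apply FreeGroup.ext_hom
    intro p
    rw [MonoidHom.comp_apply, FreeGroup.lift_apply_of, FreeGroup.lift_apply_of]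
    rfl
  rw [h]
  rfl

theorem isSS_conj {G : Type} {r : ℕ} {X : G → SpecialLinearGroup (Fin r) ℂ} (h : IsSS X)
    (U : SpecialLinearGroup (Fin r) ℂ) : IsSS fun p => U * X p * U⁻¹ := by
  rw [← SS_toU] at h ⊢
  refine Vale.Agent.P002.SS.conj (SpecialLinearGroup.toGL U) (fun w => ?_) h
  rw [toU, toU, MonoidHom.comp_apply, MonoidHom.comp_apply, lift_conj, map_mul, map_mul, map_inv]

theorem exists_blk {G : Type} {r s : ℕ} (z : Fin s → G) {X : G → SpecialLinearGroup (Fin r) ℂ}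
    (hr : 0 < r) (hz : ∀ t p, Commute (X (z t)) (X p)) (hss : IsSS X) :
    ∃ (U : SpecialLinearGroup (Fin r) ℂ) (c : Fin r → Fin r),
      Blk c z fun p => U⁻¹ * X p * U⁻¹⁻¹ := by
  obtain ⟨U, ζ, hU⟩ := exists_diag hr z hz hss
  obtain ⟨V, hV⟩ : ∃ V : G → SpecialLinearGroup (Fin r) ℂ, V = fun p => U⁻¹ * X p * U⁻¹⁻¹ :=
    ⟨_, rfl⟩
  have h1 : ∀ t, (V (z t)).1 = diagonal (ζ t) := by
    intro t
    rw [hV]
    change (U⁻¹ * X (z t) * U⁻¹⁻¹).1 = _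
    rw [inv_inv, sl_mul, sl_mul, Matrix.mul_assoc, hU, ← Matrix.mul_assoc, ← sl_mul,
      inv_mul_cancel, sl_one, Matrix.one_mul]
  have hVss : IsSS V := by
    rw [hV]
    exact isSS_conj hss U⁻¹
  have hVz : ∀ t p, Commute (V (z t)) (V p) := by
    intro t p
    rw [hV]
    have := (hz t p).map (MulAut.conj U⁻¹).toMonoidHom
    exact this
  obtain ⟨F, hF⟩ : ∃ F : Fin r → Fin s → ℂ, ∀ i t, F i t = ζ t i := ⟨fun i t => ζ t i, fun _ _ => rfl⟩
  classical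
  obtain ⟨σ, hσ⟩ : ∃ σ : (Fin s → ℂ) → Fin r, ∀ i, F (σ (F i)) = F i := by
    refine ⟨fun y => if h : ∃ j, F j = y then h.choose else ⟨0, hr⟩, fun i => ?_⟩
    have h : ∃ j, F j = F i := ⟨i, rfl⟩
    simp only [dif_pos h]
    exact h.choose_spec
  have hc : ∀ i j, F i = F j ↔ σ (F i) = σ (F j) := fun i j =>
    ⟨fun h => by rw [h], fun h => by rw [← hσ i, h, hσ j]⟩
  refine ⟨U, fun i => σ (F i), ?_⟩
  rw [← hV]
  refine ⟨fun p a => ?_, fun t => ⟨fun a => ζ t a, ?_⟩, ?_⟩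
  · ext i j
    rw [DD, Matrix.mul_diagonal, Matrix.diagonal_mul]
    by_cases h0 : (V p).1 i j = 0
    · rw [h0, zero_mul, mul_zero]
    · have h2 : F i = F j := by
        funext t
        have h3 := congrArg (fun M : SpecialLinearGroup (Fin r) ℂ => M.1 i j) (hVz t p).eq
        rw [sl_mul, sl_mul, h1, Matrix.mul_diagonal, Matrix.diagonal_mul] at h3
        rw [hF, hF]
        exact mul_right_cancel₀ h0 (h3.trans (mul_comm _ _))
      rw [h2]
      exact mul_comm _ _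
  · rw [h1, BS]
    congr 1
    funext i
    have := congrFun (hσ i) t
    rw [hF, hF] at this
    exact this.symm
  · rw [eq_top_iff, ← sSup_irr hVss]
    refine sSup_le_sSup fun W hW => ⟨hW, ?_⟩
    have h2 : ∀ t, ∃ μ : ℂ, ∀ v ∈ W, (V (z t)).1 *ᵥ v = μ • v := fun t =>
      irr_scalar hW _ (fun p => congrArg Subtype.val (hVz t p).eq) fun v hv => hW.2.1 _ v hv
    choose μ hμ using h2
    have h3 : ∀ v ∈ W, ∀ i, v i ≠ 0 → F i = μ := by
      intro v hv i hi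
      funext t
      have h4 := congrFun (hμ t v hv) i
      rw [h1, Matrix.mulVec_diagonal, Pi.smul_apply, smul_eq_mul] at h4
      rw [hF]
      exact mul_right_cancel₀ hi h4
    obtain ⟨v₀, hv₀, hv₀'⟩ := Submodule.exists_mem_ne_zero_of_ne_bot hW.1
    obtain ⟨i₀, hi₀⟩ := Function.ne_iff.1 hv₀'
    refine ⟨σ (F i₀), fun v hv => ?_⟩
    funext i
    rw [DD, Matrix.mulVec_diagonal]
    by_cases hi : v i = 0
    · rw [hi, mul_zero]
    · rw [if_pos, one_mul]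
      rw [h3 v hv i hi, h3 v₀ hv₀ i₀ hi₀]

variable {k s r : ℕ} {g n : Fin k → ℕ} {m : ∀ i, Fin (n i) → ℕ} {b : Fin k → Fin s → ℤ}
    {β : ∀ i, Fin (n i) → Fin s → ℤ} {Q : Set (Fin s → ℤ)} {S : ∀ i, Set (Fin (n i))}
    {C : ∀ i, Fin (n i) → SpecialLinearGroup (Fin r) ℂ} {S' : Set (Fin s)}
    {D : Fin s → SpecialLinearGroup (Fin r) ℂ}

theorem yc_conj {X : GensC g n s → SpecialLinearGroup (Fin r) ℂ}
    (hX : X ∈ YC m b β Q S C S' D) (U : SpecialLinearGroup (Fin r) ℂ) :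
    (fun p => U * X p * U⁻¹) ∈ YC m b β Q S C S' D := by
  obtain ⟨⟨h1, h2⟩, h3, h4⟩ := hX
  refine ⟨⟨fun w hw => ?_, isSS_conj h2 U⟩, fun i j hj => (h3 i j hj).trans ?_,
    fun t ht => (h4 t ht).trans ?_⟩
  · rw [lift_conj, h1 w hw, mul_one, mul_inv_cancel]
  · exact isConj_iff.2 ⟨U, rfl⟩
  · exact isConj_iff.2 ⟨U, rfl⟩

/-- The prescribed generators. -/
def PS (g : Fin k → ℕ) {n : Fin k → ℕ} (S : ∀ i, Set (Fin (n i))) (S' : Set (Fin s)) :
    Set (GensC g n s) :=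
  {p | (∃ i, ∃ j ∈ S i, p = Sum.inl (Sum.inr ⟨i, j⟩)) ∨ ∃ t ∈ S', p = Sum.inr t}

theorem tw_mem {c : Fin r → Fin r} {V : GensC g n s → SpecialLinearGroup (Fin r) ℂ}
    (hV : V ∈ YC m b β Q S C S' D) (hB : Blk c (fun t : Fin s => Sum.inr t) V) {ε : Fin r → ℤ}
    (hε : ∑ i, ε (c i) = 0) (φ : FreeGroup (GensC g n s) →* Multiplicative ℤ)
    (hR : ∀ w ∈ RelsC g n m b β Q, φ w = 1) (hP : ∀ p ∈ PS g S S', φ (FreeGroup.of p) = 1)
    (τ : ℂˣ) : tw c ε hε φ V τ ∈ YC m b β Q S C S' D := by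
  have h0 : ∀ p ∈ PS g S S', tw c ε hε φ V τ p = V p := by
    intro p hp
    change V p * dgS c ε hε τ (φ (FreeGroup.of p)).toAdd = V p
    rw [hP p hp, toAdd_one, dgS_zero, mul_one]
  refine ⟨⟨fun w hw => ?_, ?_⟩, fun i j hj => ?_, fun t ht => ?_⟩
  · rw [lift_tw hε φ hB.bd, hV.1.1 w hw, hR w hw, toAdd_one, dgS_zero, mul_one]
  · exact isSS_of_sSup _ (fun W hW => hW.1) (hB.tw hε φ τ).sp
  · rw [h0 _ (Or.inl ⟨i, j, hj, rfl⟩)]
    exact hV.2.1 i j hj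
  · rw [h0 _ (Or.inr ⟨t, ht, rfl⟩)]
    exact hV.2.2 t ht

theorem finite_eig (M : SpecialLinearGroup (Fin r) ℂ) : {w : ℂˣ | IsEigenvalue M w}.Finite := by
  refine Set.Finite.of_injOn (f := fun z : ℂˣ => (z : ℂ)) (t := {z : ℂ | M.1.charpoly.IsRoot z})
    (fun z hz => hz) (Units.val_injective.injOn) ?_
  exact Polynomial.finite_setOfPred_isRoot (Matrix.charpoly_monic _).ne_zero

theorem eig_ne_zero (M : SpecialLinearGroup (Fin r) ℂ) {z : ℂ} (hz : M.1.charpoly.IsRoot z) :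
    z ≠ 0 := by
  rintro rfl
  have h3 : M.1.charpoly.eval 0 = 0 := hz
  rw [Matrix.eval_charpoly, map_zero, zero_sub, Matrix.det_neg, M.2, mul_one] at h3
  exact pow_ne_zero _ (by norm_num) h3

/-- **Density of the integral points for central extensions of products of orbifold curve
groups.** -/
theorem central_density (h01 : Vale.Agent.P002L.G01Irr) (hA : Vale.Agent.P002B.G0All)
    (hC : ∀ i, ∀ j ∈ S i, ∀ z, IsEigenvalue (C i j) z → IsIntegral ℤ z ∧ IsIntegral ℤ z⁻¹)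
    (hD : ∀ t ∈ S', ∀ z, IsEigenvalue (D t) z → IsIntegral ℤ z ∧ IsIntegral ℤ z⁻¹) :
    ∃ L : IntermediateField ℚ ℂ, FiniteDimensional ℚ L ∧
      IsDenseRep L (YC (g := g) m b β Q S C S' D) := by
  obtain ⟨J, hJ, hJd, φ, h, M, hM, hφR, hφP, hφh, hφχ⟩ :=
    exists_charData (RelsC g n m b β Q) (PS g S S')
  obtain ⟨u, hu1, hu2, huinf⟩ := exists_unit
  obtain ⟨V₀, hV₀⟩ : ∃ V₀ : Set ℂˣ, V₀ = {w : ℂˣ | (∃ i, ∃ j ∈ S i, IsEigenvalue (C i j) (w : ℂ)) ∨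
      (∃ t ∈ S', IsEigenvalue (D t) (w : ℂ)) ∨ w = u ∨ w = 1} := ⟨_, rfl⟩
  have hV₀f : V₀.Finite := by
    have h1 : (⋃ p : (i : Fin k) × Fin (n i), {w : ℂˣ | IsEigenvalue (C p.1 p.2) w}).Finite :=
      Set.finite_iUnion fun p => finite_eig _
    have h2 : (⋃ t : Fin s, {w : ℂˣ | IsEigenvalue (D t) w}).Finite :=
      Set.finite_iUnion fun p => finite_eig _
    refine Set.Finite.subset ((h1.union h2).union ((Set.finite_singleton u).union
      (Set.finite_singleton 1))) ?_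
    intro w hw
    rw [hV₀] at hw
    rcases hw with ⟨i, j, -, hw⟩ | ⟨t, -, hw⟩ | hw | hw
    · exact Or.inl (Or.inl (Set.mem_iUnion.2 ⟨⟨i, j⟩, hw⟩))
    · exact Or.inl (Or.inr (Set.mem_iUnion.2 ⟨t, hw⟩))
    · exact Or.inr (Or.inl hw)
    · exact Or.inr (Or.inr hw)
  have hV₀i : ∀ w ∈ V₀, IsIntegral ℤ (w : ℂ) ∧ IsIntegral ℤ ((w⁻¹ : ℂˣ) : ℂ) := by
    intro w hw
    rw [hV₀] at hw
    rcases hw with ⟨i, j, hj, hw⟩ | ⟨t, ht, hw⟩ | rfl | rfl
    · rw [Units.val_inv_eq_inv_val]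
      exact hC i j hj _ hw
    · rw [Units.val_inv_eq_inv_val]
      exact hD t ht _ hw
    · exact ⟨hu1, hu2⟩
    · rw [inv_one, Units.val_one]
      exact ⟨isIntegral_one, isIntegral_one⟩
  obtain ⟨𝒢, h𝒢⟩ : ∃ 𝒢 : Subgroup ℂˣ, 𝒢 = Subgroup.closure V₀ := ⟨_, rfl⟩
  have hV𝒢 : ∀ w ∈ V₀, w ∈ 𝒢 := fun w hw => by
    rw [h𝒢]
    exact Subgroup.subset_closure hw
  obtain ⟨K, hK⟩ : ∃ K : ℕ, K = M * r.factorial := ⟨_, rfl⟩
  have hK0 : 0 < K := by
    rw [hK]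
    exact Nat.mul_pos hM (Nat.factorial_pos r)
  obtain ⟨mm, hmm⟩ : ∃ mm : ℕ, mm = ∏ p : (i : Fin k) × Fin (n i),
      (if m p.1 p.2 = 0 then 1 else m p.1 p.2) := ⟨_, rfl⟩
  have hmm0 : 0 < mm := by
    rw [hmm]
    refine Finset.prod_pos fun p _ => ?_
    split_ifs with h0
    · exact one_pos
    · exact Nat.pos_of_ne_zero h0
  have hmmd : ∀ i j, m i j ≠ 0 → m i j ∣ mm := by
    intro i j h0
    have h1 : (if m i j = 0 then 1 else m i j) ∣ mm := by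
      rw [hmm]
      exact Finset.dvd_prod_of_mem (fun p : (i : Fin k) × Fin (n i) =>
        (if m p.1 p.2 = 0 then 1 else m p.1 p.2)) (Finset.mem_univ (⟨i, j⟩ : (i : Fin k) × Fin (n i)))
    rwa [if_neg h0] at h1
  obtain ⟨Ez, hEz⟩ : ∃ Ez : Subgroup ℂˣ, ∀ w, w ∈ Ez ↔ w ^ K ∈ 𝒢 :=
    ⟨𝒢.comap (powMonoidHom K), fun w => Iff.rfl⟩
  obtain ⟨V₁, hV₁⟩ : ∃ V₁ : Set ℂˣ, V₁ = {w | w ^ (K * mm) ∈ V₀} := ⟨_, rfl⟩
  have hKm : 0 < K * mm := Nat.mul_pos hK0 hmm0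
  have hV₁f : V₁.Finite := by
    have h1 : (⋃ v ∈ V₀, {w : ℂˣ | w ^ (K * mm) = v}).Finite := by
      refine hV₀f.biUnion fun v _ => ?_
      refine Set.Finite.of_injOn (f := fun z : ℂˣ => (z : ℂ))
        (t := {z : ℂ | (Polynomial.X ^ (K * mm) - Polynomial.C (v : ℂ)).IsRoot z})
        (fun z hz => ?_) (Units.val_injective.injOn) ?_
      · change Polynomial.eval _ _ = 0
        rw [Polynomial.eval_sub, Polynomial.eval_pow, Polynomial.eval_X, Polynomial.eval_C,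
          ← Units.val_pow_eq_pow_val, show z ^ (K * mm) = v from hz, sub_self]
      · exact Polynomial.finite_setOfPred_isRoot (Polynomial.X_pow_sub_C_ne_zero hKm _)
    refine h1.subset fun w hw => ?_
    rw [hV₁] at hw
    exact Set.mem_biUnion hw rfl
  obtain ⟨L, hL, hc, hT⟩ := exists_tor_field V₁ hV₁f (fun w hw => by
    rw [hV₁] at hw
    obtain ⟨h1, h2⟩ := hV₀i _ hw
    refine ⟨IsIntegral.of_pow hKm ?_, IsIntegral.of_pow hKm ?_⟩
    · rw [← Units.val_pow_eq_pow_val]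
      exact h1
    · rw [← Units.val_pow_eq_pow_val, inv_pow]
      exact h2) (r * r)
  obtain ⟨E, hE⟩ : ∃ E, E = Subgroup.closure (insert (-1) V₁) := ⟨_, rfl⟩
  rw [← hE] at hc hT
  have hEmem : ∀ w : ℂˣ, w ^ (K * mm) ∈ 𝒢 → w ∈ E := by
    intro w hw
    have h1 : 𝒢 ≤ (Subgroup.closure V₁).map (powMonoidHom (K * mm)) := by
      rw [h𝒢, Subgroup.closure_le]
      intro v hv
      obtain ⟨x, hx⟩ := IsAlgClosed.exists_pow_nat_eq (v : ℂ) hKm
      have hx0 : x ≠ 0 := by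
        rintro rfl
        rw [zero_pow hKm.ne'] at hx
        exact v.ne_zero hx.symm
      have h2 : (Units.mk0 x hx0) ^ (K * mm) = v := by
        apply Units.ext
        rw [Units.val_pow_eq_pow_val, Units.val_mk0, hx]
      refine ⟨Units.mk0 x hx0, Subgroup.subset_closure ?_, h2⟩
      rw [hV₁]
      change (Units.mk0 x hx0) ^ (K * mm) ∈ V₀
      rw [h2]
      exact hv
    obtain ⟨e, he, he'⟩ := h1 hw
    have h2 : e ^ (K * mm) = w ^ (K * mm) := he'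
    have h3 : w * e⁻¹ ∈ V₁ := by
      rw [hV₁]
      change (w * e⁻¹) ^ (K * mm) ∈ V₀
      rw [mul_pow, inv_pow, h2, mul_inv_cancel, hV₀]
      exact Or.inr (Or.inr (Or.inr rfl))
    have h4 : w = (w * e⁻¹) * e := by rw [inv_mul_cancel_right]
    rw [h4, hE]
    exact mul_mem (Subgroup.subset_closure (Set.mem_insert_of_mem _ h3))
      (Subgroup.closure_mono (Set.subset_insert _ _) he)
  have hEE : Ez ≤ E := by
    intro w hw
    rw [hEz] at hw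
    refine hEmem w ?_
    rw [pow_mul]
    exact pow_mem hw _
  have hV₀E : ∀ w : ℂˣ, w ∈ V₀ → w ∈ E := fun w hw => hEmem w (pow_mem (hV𝒢 w hw) _)
  have hCE : ∀ i, ∀ j ∈ S i, ∀ B : Subgroup ℂˣ, (∀ w ∈ V₀, w ∈ B) → EigIn B ((C i j).1) := by
    intro i j hj B hB z hz
    refine ⟨Units.mk0 z (eig_ne_zero _ hz), hB _ ?_, rfl⟩
    rw [hV₀]
    exact Or.inl ⟨i, j, hj, hz⟩
  have hDE : ∀ t ∈ S', ∀ B : Subgroup ℂˣ, (∀ w ∈ V₀, w ∈ B) → EigIn B ((D t).1) := by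
    intro t ht B hB z hz
    refine ⟨Units.mk0 z (eig_ne_zero _ hz), hB _ ?_, rfl⟩
    rw [hV₀]
    exact Or.inr (Or.inl ⟨t, ht, hz⟩)
  refine ⟨L, hL, ?_⟩
  intro f hf
  -- the points with good central eigenvalues
  have good : ∀ X ∈ YC m b β Q S C S' D, (∀ t, EigIn Ez ((X (Sum.inr t)).1)) → value f X = 0 := by
    intro X hX hz
    obtain ⟨T', h1, h2, h3⟩ := piece m b β Q S C S' D h01 hA X hX Ez E hz hEE
      (fun i j h0 w hw => by
        rw [hEz] at hw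
        refine hEmem w ?_
        obtain ⟨q, hq⟩ := hmmd i j h0
        rw [hq, show K * (m i j * q) = (m i j) * K * q by ring, pow_mul, pow_mul]
        exact pow_mem hw _)
      (fun i j hj => hCE i j hj E hV₀E) L hL hc (hT.mono (Nat.le_mul_self r))
    exact h3 f (fun Y hY hY' => hf Y (h1 hY) hY') X h2
  intro X hX
  rcases Nat.eq_zero_or_pos r with hr | hr
  · subst hr
    exact good X hX fun t => eigIn_zero _
  have hcen : ∀ t p, Commute (X (Sum.inr t)) (X p) := ((isRepC_iff g m b β Q X).1 hX.1.1).2.2.1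
  obtain ⟨U, c, hBlk⟩ := exists_blk (fun t : Fin s => (Sum.inr t : GensC g n s)) hr hcen hX.1.2
  obtain ⟨V, hV⟩ : ∃ V : GensC g n s → SpecialLinearGroup (Fin r) ℂ,
      V = fun p => U⁻¹ * X p * U⁻¹⁻¹ := ⟨_, rfl⟩
  rw [← hV] at hBlk
  have hVY : V ∈ YC m b β Q S C S' D := by
    rw [hV]
    exact yc_conj hX U⁻¹
  obtain ⟨f', hf'⟩ := exists_conj_poly U f
  have hXV : value f X = value f' V := by
    rw [hf']
    congr 1
    funext p
    rw [hV]
    group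
  rw [hXV]
  refine twist_main (fun t : Fin s => (Sum.inr t : GensC g n s)) c φ h hφh 𝒢 u
    (hV𝒢 u (by rw [hV₀]; exact Or.inr (Or.inr (Or.inl rfl)))) huinf (YC m b β Q S C S' D)
    (fun V' hV' hB ε hε l τ => tw_mem hV' hB hε (φ l) (hφR l) (hφP l) τ) f' ?_ V hVY hBlk
  intro V' hV' hB hgood
  rw [hf']
  refine good _ (yc_conj hV' U) fun t => ?_
  refine eigIn_conj (isConj_iff.2 ⟨U, rfl⟩ : IsConj (V' (Sum.inr t)) _) ?_
  intro w hw
  obtain ⟨ζ, hζ⟩ := hB.dg t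
  rw [hζ] at hw
  obtain ⟨i, hi⟩ := root_diag _ w hw
  have hw0 : w ≠ 0 := eig_ne_zero (V' (Sum.inr t)) (by rw [hζ]; exact hw)
  refine ⟨Units.mk0 w hw0, ?_, rfl⟩
  rw [hEz]
  -- the block of `i`
  have h1 : ((bchar c (c i) V' hB.bd (FreeGroup.of (Sum.inr t)) : ℂˣ) : ℂ) =
      w ^ bsz c (c i) := by
    rw [bchar_apply, FreeGroup.lift_apply_of, hζ, bdet_BS, hi]
    rfl
  have h2 := hφχ ℂˣ (bchar c (c i) V' hB.bd) 𝒢 (fun v hv => by
    apply Units.ext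
    rw [bchar_apply, hV'.1.1 v hv, sl_one, bdet_one, Units.val_one]) (fun p hp => by
    have h3 : EigIn 𝒢 ((V' p).1) := by
      rcases hp with ⟨i', j, hj, rfl⟩ | ⟨t', ht', rfl⟩
      · exact eigIn_conj (hV'.2.1 i' j hj) (hCE i' j hj 𝒢 hV𝒢)
      · exact eigIn_conj (hV'.2.2 t' ht') (hDE t' ht' 𝒢 hV𝒢)
    obtain ⟨e, he, he'⟩ := bdet_mem (hB.bd p) (c i) h3
    have h4 : bchar c (c i) V' hB.bd (FreeGroup.of p) = e := by
      apply Units.ext
      rw [bchar_apply, FreeGroup.lift_apply_of, he']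
    rw [h4]
    exact he) (FreeGroup.of (Sum.inr t))
  rw [mul_pow] at h2
  have h3 : (bchar c (c i) V' hB.bd (FreeGroup.of (Sum.inr t))) ^ M ∈ 𝒢 := by
    refine (Subgroup.mul_mem_cancel_right 𝒢 (pow_mem (Subgroup.prod_mem _ fun l _ =>
      zpow_mem (hgood (c i) l) _) _)).1 h2
  have h4 : bchar c (c i) V' hB.bd (FreeGroup.of (Sum.inr t)) =
      (Units.mk0 w hw0) ^ bsz c (c i) := by
    apply Units.ext
    rw [h1, Units.val_pow_eq_pow_val, Units.val_mk0]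
  rw [h4, ← pow_mul] at h3
  have h5 : bsz c (c i) ∣ r.factorial := by
    refine Nat.dvd_factorial ?_ ?_
    · rw [bsz, Finset.card_pos]
      exact ⟨i, by simp⟩
    · have := Finset.card_le_univ (Finset.univ.filter fun j => c j = c i)
      rw [Fintype.card_fin] at this
      exact this
  obtain ⟨q, hq⟩ := h5
  rw [hK, hq, show M * (bsz c (c i) * q) = bsz c (c i) * M * q by ring, pow_mul]
  exact pow_mem h3 _

end Vale.Agent.P002.H326
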